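import Vale.Agent.N157X.Defs

/-! A functional which is convex in `f` and whose exponential is concave in `exp f` has a
derivative. -/

namespace Vale.Agent.N157X

open MeasureTheory ProbabilityTheory Filter Real Topology

section Bd

variable {f h : ℝ → ℝ}

theorem Bd.add (a : Bd f) (b : Bd h) : Bd (f + h) := by
  obtain ⟨a1, B, a2⟩ := a
  obtain ⟨b1, C, b2⟩ := b
  exact ⟨a1.add b1, B + C, fun x => (abs_add_le _ _).trans (add_le_add (a2 x) (b2 x))⟩

theorem Bd.smul (a : Bd f) (t : ℝ) : Bd (t • f) := by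
  obtain ⟨a1, B, a2⟩ := a
  exact ⟨a1.const_smul t, |t| * B, fun x => by
    rw [Pi.smul_apply, smul_eq_mul, abs_mul]
    exact mul_le_mul_of_nonneg_left (a2 x) (abs_nonneg t)⟩

theorem Bd.const (c : ℝ) : Bd fun _ => c := ⟨measurable_const, |c|, fun _ => le_rfl⟩

theorem Bd.neg (a : Bd f) : Bd (-f) := by simpa using a.smul (-1)

theorem Bd.sub (a : Bd f) (b : Bd h) : Bd (f - h) := by
  simpa [sub_eq_add_neg] using a.add b.neg

theorem Bd.exp (a : Bd f) : Bd fun x => exp (f x) := by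
  obtain ⟨a1, B, a2⟩ := a
  exact ⟨a1.exp, Real.exp B, fun x => by
    rw [abs_of_pos (exp_pos _)]
    exact exp_le_exp.2 ((le_abs_self _).trans (a2 x))⟩

theorem Bd.abs (a : Bd f) : Bd fun x => |f x| := by
  obtain ⟨a1, B, a2⟩ := a
  exact ⟨a1.abs, B, fun x => by simpa using a2 x⟩

theorem Bd.sum {d : ℕ} {h : Fin d → ℝ → ℝ} (a : ∀ i, Bd (h i)) (t : Fin d → ℝ) :
    Bd (∑ i, t i • h i) :=
  Finset.sum_induction _ Bd (fun _ _ => Bd.add) (Bd.const 0) fun i _ => (a i).smul _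

theorem Bd.int (a : Bd f) (ν : Measure ℝ) [IsFiniteMeasure ν] : Integrable f ν := by
  obtain ⟨a1, B, a2⟩ := a
  exact Integrable.of_bound a1.aestronglyMeasurable B (ae_of_all _ a2)

theorem Bd.ind {A : Set ℝ} (hA : MeasurableSet A) (c : ℝ) : Bd (A.indicator fun _ => c) :=
  ⟨measurable_const.indicator hA, |c|, fun x => by
    by_cases hx : x ∈ A <;> simp [hx]⟩

end Bd

theorem le_of_quad {a b K : ℝ} (h : ∀ t : ℝ, 0 < t → t ≤ 1 → t * a ≤ t * b + K * t ^ 2) :
    a ≤ b := by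
  have h1 : Tendsto (fun t : ℝ => b + K * t) (𝓝[>] 0) (𝓝 (b + K * 0)) :=
    ((continuous_const.add (continuous_const.mul continuous_id)).tendsto 0).mono_left
      nhdsWithin_le_nhds
  rw [mul_zero, add_zero] at h1
  refine ge_of_tendsto h1 ?_
  filter_upwards [Ioc_mem_nhdsGT (zero_lt_one' ℝ)] with t ht
  have := h t ht.1 ht.2
  exact le_of_mul_le_mul_left (by nlinarith) ht.1

theorem eq_of_quad {a b K : ℝ} (h : ∀ t : ℝ, t * a ≤ t * b + K * t ^ 2) : a = b :=
  le_antisymm (le_of_quad fun t _ _ => h t) (le_of_quad (K := K) fun t _ _ => by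
    have := h (-t)
    nlinarith)

/-- the properties of the limit which are used -/
structure Ax (α : ℝ) (L : (ℝ → ℝ) → ℝ) : Prop where
  pos : 0 < α
  conv : ∀ {f f' : ℝ → ℝ}, Bd f → Bd f' → ∀ a b : ℝ, 0 ≤ a → 0 ≤ b → a + b = 1 →
    L (a • f + b • f') ≤ a * L f + b * L f'
  sup : ∀ {f f₁ f₂ : ℝ → ℝ}, Bd f → Bd f₁ → Bd f₂ → ∀ a b : ℝ, 0 ≤ a → 0 ≤ b →
    (∀ x, a * exp (f₁ x) + b * exp (f₂ x) ≤ exp (f x)) →
    a * exp (L f₁ / α) + b * exp (L f₂ / α) ≤ exp (L f / α)
  comp : ∀ {f f' w : ℝ → ℝ} {R : ℝ}, Bd f → Bd f' → Bd w →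
    (∀ x, -R ≤ f' x ∧ 0 ≤ w x ∧ exp (f x) ≤ exp (f' x) + w x) →
    L f ≤ L f' + α * (exp R * ∫ x, w x ∂gaussianReal 0 1)
  comp' : ∀ {f f' w : ℝ → ℝ} {R : ℝ}, Bd f → Bd f' → Bd w →
    (∀ x, f' x ≤ R ∧ 0 ≤ w x ∧ exp (f x) + w x ≤ exp (f' x)) →
    L f + α * (exp (-R) * ∫ x, w x ∂gaussianReal 0 1) ≤ L f'

variable {α : ℝ} {L : (ℝ → ℝ) → ℝ} (H : Ax α L) {f h h' : ℝ → ℝ}
include H

theorem Ax.shift (a : Bd f) (b : Bd h) {c : ℝ} (hc : ∀ x, f x + c ≤ h x) :
    L f + α * c ≤ L h := by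
  have := H.sup b a a (exp c) 0 (exp_pos c).le le_rfl fun x => by
    rw [zero_mul, add_zero, ← exp_add]
    exact exp_le_exp.2 (by linarith [hc x])
  rw [zero_mul, add_zero, ← exp_add, exp_le_exp, le_div_iff₀ H.pos, add_mul,
    div_mul_cancel₀ _ H.pos.ne'] at this
  linarith

theorem Ax.mono (a : Bd f) (b : Bd h) (hc : ∀ x, f x ≤ h x) : L f ≤ L h := by
  simpa using H.shift a b (c := 0) (by simpa using hc)

theorem Ax.semi (a : Bd f) (b : Bd h) {C : ℝ} (hC : ∀ x, |h x| ≤ C) :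
    L (f + h) + L (f - h) ≤ 2 * L f + α * C ^ 2 := by
  have e : ∀ x, exp (-(C ^ 2 / 2)) / 2 * exp ((f + h) x) +
      exp (-(C ^ 2 / 2)) / 2 * exp ((f - h) x) ≤ exp (f x) := fun x => by
    have a1 := cosh_le_exp_half_sq (h x)
    have a2 : h x ^ 2 ≤ C ^ 2 := sq_le_sq' (abs_le.1 (hC x)).1 (abs_le.1 (hC x)).2
    have a3 : exp (h x ^ 2 / 2) * exp (-(C ^ 2 / 2)) ≤ 1 := by
      rw [← exp_add]
      exact exp_le_one_iff.2 (by linarith)
    have a4 := mul_le_mul_of_nonneg_right a1 (exp_pos (-(C ^ 2 / 2))).le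
    rw [cosh_eq] at a4
    rw [Pi.add_apply, Pi.sub_apply, sub_eq_add_neg, exp_add, exp_add]
    nlinarith [exp_pos (f x)]
  have a1 := H.sup a (a.add b) (a.sub b) _ _ (by positivity) (by positivity) e
  have a2 := convexOn_exp.2 (Set.mem_univ (L (f + h) / α)) (Set.mem_univ (L (f - h) / α))
    (by norm_num : (0 : ℝ) ≤ 1 / 2) (by norm_num : (0 : ℝ) ≤ 1 / 2) (by norm_num)
  simp only [smul_eq_mul] at a2
  have a3 := mul_le_mul_of_nonneg_left a2 (exp_pos (-(C ^ 2 / 2))).le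
  rw [← exp_add] at a3
  have a4 := exp_le_exp.1 (a3.trans (le_of_eq_of_le (by ring) a1))
  have a5 : (L (f + h) + L (f - h) - 2 * L f) / α ≤ C ^ 2 := by
    rw [sub_div, add_div, mul_div_assoc]
    linarith
  rw [div_le_iff₀ H.pos] at a5
  linarith

/-- `D` is the derivative of `L` at `f` in the direction `h` -/
def Der (L : (ℝ → ℝ) → ℝ) (f h : ℝ → ℝ) (D : ℝ) : Prop := ∀ t : ℝ, t * D ≤ L (f + t • h) - L f

theorem Ax.der_ex (a : Bd f) (b : Bd h) : ∃ D, Der L f h D := by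
  have key : ∀ s t : ℝ, 0 < s → 0 < t →
      -(L (f + (-s) • h) - L f) / s ≤ (L (f + t • h) - L f) / t := fun s t hs ht => by
    have hst : 0 < s + t := by linarith
    have a1 := H.conv (a.add (b.smul t)) (a.add (b.smul (-s))) (s / (s + t)) (t / (s + t))
      (by positivity) (by positivity) (by field_simp)
    have e : (s / (s + t)) • (f + t • h) + (t / (s + t)) • (f + (-s) • h) = f := by
      funext x
      simp only [Pi.add_apply, Pi.smul_apply, smul_eq_mul]
      field_simp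
      ring
    rw [e] at a1
    rw [div_le_div_iff₀ hs ht]
    have a2 := mul_le_mul_of_nonneg_left a1 hst.le
    field_simp at a2
    linarith
  obtain ⟨D, h1, h2⟩ := Real.exists_isGLB (s := {y | ∃ t : ℝ, 0 < t ∧ y = (L (f + t • h) - L f) / t})
    ⟨_, 1, one_pos, rfl⟩ ⟨_, fun y ⟨t, ht, e⟩ => e ▸ key 1 t one_pos ht⟩
  refine ⟨D, fun t => ?_⟩
  rcases lt_trichotomy t 0 with ht | rfl | ht
  · have := h2 (a := -(L (f + (- -t) • h) - L f) / -t) fun y ⟨u, hu, e⟩ =>
      e ▸ key (-t) u (by linarith) hu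
    rw [neg_neg, div_le_iff₀ (by linarith)] at this
    linarith
  · simp
  · have := h1 ⟨t, ht, rfl⟩
    rw [le_div_iff₀ ht] at this
    linarith

theorem Ax.der_up (a : Bd f) (b : Bd h) {C D : ℝ} (hC : ∀ x, |h x| ≤ C) (hD : Der L f h D)
    (t : ℝ) : L (f + t • h) - L f ≤ t * D + α * C ^ 2 * t ^ 2 := by
  have a1 := H.semi a (b.smul t) (C := |t| * C) fun x => by
    rw [Pi.smul_apply, smul_eq_mul, abs_mul]
    exact mul_le_mul_of_nonneg_left (hC x) (abs_nonneg t)
  have a2 := hD (-t)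
  rw [neg_smul, ← sub_eq_add_neg] at a2
  rw [mul_pow, sq_abs] at a1
  linarith

theorem Ax.der_uniq (a : Bd f) (b : Bd h) {D D' : ℝ} (hD : Der L f h D) (hD' : Der L f h D') :
    D = D' := by
  obtain ⟨C, hC⟩ := b.2
  exact eq_of_quad fun t => (hD t).trans (H.der_up a b hC hD' t)

theorem Ax.der_low (a : Bd f) (b : Bd h) {B D : ℝ} (hB : ∀ x, |f x| ≤ B) (hh : ∀ x, 0 ≤ h x)
    (hD : Der L f h D) : α * (exp (-(2 * B)) * ∫ x, h x ∂gaussianReal 0 1) ≤ D := by
  obtain ⟨C, hC⟩ := b.2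
  have hα := H.pos
  have hI : 0 ≤ ∫ x, h x ∂gaussianReal 0 1 := integral_nonneg hh
  refine le_of_quad (K := α * C ^ 2 + α * (exp (-(2 * B)) * ∫ x, h x ∂gaussianReal 0 1) * C)
    fun t ht _ => ?_
  have a1 := H.comp' (R := B + t * C) a (a.add (b.smul t)) (b.smul (exp (-B) * t)) fun x => by
    have c1 := abs_le.1 (hB x)
    have c2 := mul_le_mul_of_nonneg_left (abs_le.1 (hC x)).2 ht.le
    have c3 := mul_nonneg ht.le (hh x)
    have c4 := mul_le_mul_of_nonneg_right (exp_le_exp.2 c1.1) c3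
    simp only [Pi.add_apply, Pi.smul_apply, smul_eq_mul, exp_add]
    refine ⟨by linarith, by rw [mul_assoc]; positivity, ?_⟩
    nlinarith [add_one_le_exp (t * h x), exp_pos (f x)]
  simp only [Pi.smul_apply, smul_eq_mul, integral_const_mul] at a1
  have a2 := H.der_up a b hC hD t
  have a3 := mul_le_mul_of_nonneg_right (add_one_le_exp (-(t * C)))
    (show 0 ≤ α * (exp (-B) * exp (-B) * ∫ x, h x ∂gaussianReal 0 1) * t by positivity)
  rw [neg_add, exp_add] at a1
  rw [two_mul, neg_add, exp_add]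
  nlinarith

/-- the derivative as a function of the direction -/
theorem Ax.der (a : Bd f) : ∃ p : (ℝ → ℝ) → ℝ, (∀ h, Bd h → Der L f h (p h)) ∧
    (∀ h h', Bd h → Bd h' → p (h + h') = p h + p h') ∧
    (∀ h (c : ℝ), Bd h → p (c • h) = c * p h) ∧ p (fun _ => 1) = α ∧
    (∀ h h', Bd h → Bd h' → (∀ x, h x ≤ h' x) → p h ≤ p h') ∧
    (∀ B, (∀ x, |f x| ≤ B) → ∀ h, Bd h → (∀ x, 0 ≤ h x) →
      p h ≤ α * (exp (2 * B) * ∫ x, h x ∂gaussianReal 0 1)) ∧
    ∀ h, Bd h → exp ((L (f + h) - L f) / α) ≤ p (fun x => exp (h x)) / α := by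
  have h0 : ∀ h, ∃ D, Bd h → Der L f h D := fun h => by
    by_cases b : Bd h
    · exact (H.der_ex a b).imp fun _ k _ => k
    · exact ⟨0, fun k => absurd k b⟩
  choose p hp using h0
  have hα := H.pos
  have h1 : ∀ h h', Bd h → Bd h' → p (h + h') = p h + p h' := fun h h' b b' => by
    obtain ⟨C, hC⟩ := b.2
    obtain ⟨C', hC'⟩ := b'.2
    refine eq_of_quad (K := 2 * α * (C ^ 2 + C' ^ 2)) fun t => ?_
    have a1 := H.conv (a.add (b.smul (2 * t))) (a.add (b'.smul (2 * t))) (1 / 2) (1 / 2)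
      (by norm_num) (by norm_num) (by norm_num)
    have e : (1 / 2 : ℝ) • (f + (2 * t) • h) + (1 / 2 : ℝ) • (f + (2 * t) • h') =
        f + t • (h + h') := by
      funext x
      simp only [Pi.add_apply, Pi.smul_apply, smul_eq_mul]
      ring
    rw [e] at a1
    have a2 := H.der_up a b hC (hp h b) (2 * t)
    have a3 := H.der_up a b' hC' (hp h' b') (2 * t)
    have a4 := hp _ (b.add b') t
    linarith
  have h2 : ∀ h (c : ℝ), Bd h → p (c • h) = c * p h := fun h c b =>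
    H.der_uniq a (b.smul c) (hp _ (b.smul c)) fun t => by
      rw [smul_smul, ← mul_assoc]
      exact hp h b _
  have h3 : p (fun _ => 1) = α := H.der_uniq a (Bd.const 1) (hp _ (Bd.const 1)) fun t => by
    have := H.shift a (a.add ((Bd.const 1).smul t)) (c := t) fun x => by simp
    linarith
  refine ⟨p, hp, h1, h2, h3, fun h h' b b' hle => ?_, fun B hB h b hh => ?_, fun h b => ?_⟩
  · obtain ⟨C, hC⟩ := b'.2
    refine le_of_quad (K := α * C ^ 2) fun t ht _ => ?_
    have a1 := H.mono (a.add (b.smul t)) (a.add (b'.smul t)) fun x => by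
      simp only [Pi.add_apply, Pi.smul_apply, smul_eq_mul]
      nlinarith [hle x]
    linarith [hp h b t, H.der_up a b' hC (hp h' b') t]
  · obtain ⟨C, hC⟩ := b.2
    have hI : 0 ≤ ∫ x, h x ∂gaussianReal 0 1 := integral_nonneg hh
    refine le_of_quad (K := α * (exp (2 * B) * ∫ x, h x ∂gaussianReal 0 1) * exp C)
      fun t ht ht1 => ?_
    have a1 := H.comp (R := B) (a.add (b.smul t)) a (b.smul (exp B * (t * (1 + t * exp C))))
      fun x => by
        have c1 := abs_le.1 (hB x)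
        have c2 := (abs_le.1 (hC x)).2
        have c3 := hh x
        simp only [Pi.add_apply, Pi.smul_apply, smul_eq_mul]
        refine ⟨c1.1, by positivity, ?_⟩
        have c4 := convexOn_exp.2 (Set.mem_univ 0) (Set.mem_univ C) (sub_nonneg.2 ht1) ht.le
          (by ring)
        simp only [smul_eq_mul, mul_zero, zero_add, exp_zero, mul_one] at c4
        have c5 : exp (t * h x) ≤ 1 + t * exp C :=
          (exp_le_exp.2 (mul_le_mul_of_nonneg_left c2 ht.le)).trans (by linarith)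
        have c6 : exp (t * h x) ≤ 1 + t * h x * exp (t * h x) := by
          have d1 := mul_le_mul_of_nonneg_right (add_one_le_exp (-(t * h x))) (exp_pos (t * h x)).le
          rw [← exp_add, neg_add_cancel, exp_zero] at d1
          linarith
        have c7 := mul_le_mul_of_nonneg_left c5 (mul_nonneg ht.le c3)
        have c8 := exp_le_exp.2 c1.2
        have c9 : 0 ≤ t * h x * (1 + t * exp C) := by positivity
        rw [exp_add]
        nlinarith [exp_pos (f x)]
    simp only [Pi.smul_apply, smul_eq_mul, integral_const_mul] at a1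
    have a2 := hp h b t
    rw [two_mul, exp_add]
    nlinarith
  · have b1 : Bd ((fun x => exp (h x)) + (-1 : ℝ) • fun _ => (1 : ℝ)) :=
      b.exp.add ((Bd.const 1).smul _)
    obtain ⟨C, hC⟩ := b1.2
    have a0 := H.der_up a b1 hC (hp _ b1)
    rw [h1 _ _ b.exp ((Bd.const 1).smul _), h2 _ _ (Bd.const 1), h3] at a0
    set ρ := exp ((L (f + h) - L f) / α) with hρ
    have hρ0 : 0 < ρ := exp_pos _
    set d := p (fun x => exp (h x)) / α - 1 with hd
    suffices ρ - 1 ≤ d by linarith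
    refine le_of_quad (K := C ^ 2 + |d * (ρ - 1)| + C ^ 2 * |ρ - 1|) fun t ht ht1 => ?_
    have a1 := H.sup (a.add (b1.smul t)) a (a.add b) (1 - t) t (by linarith) ht.le fun x => by
      simp only [Pi.add_apply, Pi.smul_apply, smul_eq_mul, exp_add]
      nlinarith [add_one_le_exp (t * (exp (h x) + -1 * 1)), exp_pos (f x)]
    have a2 : (L (f + t • ((fun x => exp (h x)) + (-1 : ℝ) • fun _ => (1 : ℝ))) - L f) / α ≤
        t * d + C ^ 2 * t ^ 2 := by
      rw [div_le_iff₀ hα, hd]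
      refine (a0 t).trans_eq ?_
      field_simp
      ring
    have a3 : 1 + t * (ρ - 1) ≤ exp (t * d + C ^ 2 * t ^ 2) := by
      refine le_trans ?_ (exp_le_exp.2 a2)
      rw [hρ, sub_div, sub_div, exp_sub, exp_sub, le_div_iff₀ (exp_pos _)]
      refine le_of_eq_of_le ?_ a1
      field_simp
      ring
    have a4 : 0 < 1 + t * (ρ - 1) := by nlinarith
    have a5 := (one_sub_inv_le_log_of_pos a4).trans ((log_le_iff_le_exp a4).2 a3)
    have a6 := mul_le_mul_of_nonneg_right a5 a4.le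
    rw [sub_mul, inv_mul_cancel₀ a4.ne'] at a6
    have a7 : t * (ρ - 1) ≤ |ρ - 1| := by nlinarith [le_abs_self (ρ - 1), abs_nonneg (ρ - 1)]
    have a8 := mul_le_mul_of_nonneg_left a7 (mul_nonneg (sq_nonneg C) (sq_nonneg t))
    have a9 := mul_le_mul_of_nonneg_left (le_abs_self (d * (ρ - 1))) (sq_nonneg t)
    nlinarith

end Vale.Agent.N157X
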