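import Vale.Agent.N157X.Casc

/-! The limit of the pressure has the properties `Sys`. -/

namespace Vale.Agent.N157X

open MeasureTheory ProbabilityTheory Filter Real Topology Vale.Agent.P157.Par Vale.Agent.P157.Sph
  Vale.Agent.N157 Vale.Agent.P157W88

variable {s : Bool} {α : ℝ} {f : ℝ → ℝ}

theorem mem_values (hf : Measurable f) (y : ℝ) : y ∈ values s α f ↔
    ∃ (k : ℕ) (m q : ℕ → ℝ), Exponents k m ∧ Inc k q ∧ q k < 1 ∧
      Ent s k m q (y - α * down m q k (gstep 1 (1 - q k) f)) := by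
  simp only [values, Set.mem_ofPred_eq, top_eq hf]
  constructor
  · rintro ⟨k, m, q, c, a1, a2, a3, a4, a5, a6, rfl⟩
    exact ⟨k, m, q, ⟨a1, a2, a3⟩, a4, a5, by rwa [add_sub_cancel_left]⟩
  · rintro ⟨k, m, q, ⟨a1, a2, a3⟩, a4, a5, a6⟩
    exact ⟨k, m, q, _, a1, a2, a3, a4, a5, a6, by ring⟩

theorem ref_true (N : ℕ) : ref true N = cubeLaw N := rfl

theorem ref_false {N : ℕ} (hN : 1 ≤ N) : ref false N = sphereLaw N := (sphereLaw_toSphere hN).symm

theorem ref_prob (s : Bool) (N : ℕ) (hN : 1 ≤ N) : IsProbabilityMeasure (ref s N) := by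
  cases s
  · rw [ref_false hN]; exact sphereLaw_prob hN
  · exact cubeLaw_prob N

theorem of_limit {μ : (N : ℕ) → Measure (E N)} (hμ : ∀ N, 1 ≤ N → ref s N = μ N) {L : ℝ}
    (h1 : Limit μ α f L) (h2 : LimitL1 μ α f L) :
    (∀ N, 1 ≤ N → Integrable (press s f) (pat α N)) ∧
      Tendsto (fun N => ∫ g, press s f g ∂pat α N) atTop (𝓝 L) ∧
      Tendsto (fun N => ∫ g, |press s f g - L| ∂pat α N) atTop (𝓝 0) := by
  have hp : ∀ N, IsPatterns (pat α N) fun (a : Fin ⌊α * N⌋₊) ω => ω a := fun N =>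
    ⟨by unfold pat; infer_instance, iIndepFun_pi (X := fun _ => id) fun _ => aemeasurable_id,
      fun a => (measurePreserving_eval (fun _ => stdGaussian (E N)) a).hasLaw⟩
  have e : ∀ N : ℕ, 1 ≤ N → (press s f : (Fin ⌊α * N⌋₊ → V N) → ℝ) =
      fun g => P157W88.press (μ N) f g := fun N hN => by
    rw [← hμ N hN]
    rfl
  obtain ⟨a1, a2⟩ := h1 _ _ _ hp
  have a3 := h2 _ _ _ hp
  refine ⟨fun N hN => by rw [e N hN]; exact a1 N hN, a2.congr' ?_, a3.congr' ?_⟩ <;>
    filter_upwards [eventually_ge_atTop 1] with N hN <;> rw [e N hN]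

theorem formula (s : Bool) (hα : 0 < α) (a : Bd f) : ∃ L : ℝ, IsGLB (values s α f) L ∧
    (∀ N, 1 ≤ N → Integrable (press s f) (pat α N)) ∧
      Tendsto (fun N => ∫ g, press s f g ∂pat α N) atTop (𝓝 L) ∧
      Tendsto (fun N => ∫ g, |press s f g - L| ∂pat α N) atTop (𝓝 0) := by
  obtain ⟨B, hB⟩ := a.2
  cases s
  · obtain ⟨L, h1, h2, h3⟩ := sphere_formula' (cls_of_bdd a.1 hB) hα
    refine ⟨L, ?_, of_limit (fun N => ref_false) h1 h2⟩
    convert h3 using 1
    ext y
    simp only [mem_values a.1, psi_eq' a.1, Set.mem_ofPred_eq, Ent, Bool.false_eq_true, if_false,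
      sub_eq_iff_eq_add']
    rfl
  · obtain ⟨L, h1, h2, h3⟩ := cube_formula (cls_of_bdd a.1 hB) hα
    refine ⟨L, ?_, of_limit (fun N _ => ref_true N) h1 h2⟩
    convert h3 using 1
    ext y
    have hc : Measurable fun x : ℝ => log (cosh x) := by fun_prop
    simp only [mem_values a.1, psi_eq' a.1, Set.mem_ofPred_eq, Ent, if_true, parisi, add_assoc,
      isLUB_shift, down_eq _ _ _ hc]
    rfl

theorem press_conv {M N : ℕ} (hN : 1 ≤ N) {f' : ℝ → ℝ} (k : Bd f) (k' : Bd f') {a b : ℝ}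
    (ha : 0 ≤ a) (hb : 0 ≤ b) (hab : a + b = 1) (g : Fin M → V N) :
    press s (a • f + b • f') g ≤ a * press s f g + b * press s f' g := by
  have := ref_prob s N hN
  have i1 := ham_int g k (ref s N)
  have i2 := ham_int g k' (ref s N)
  have i3 := ham_int g ((k.smul a).add (k'.smul b)) (ref s N)
  have p1 := integral_exp_pos i1
  have p2 := integral_exp_pos i2
  simp only [press]
  set u := ∫ x, exp (ham f g x) ∂ref s N with hu
  set w := ∫ x, exp (ham f' g x) ∂ref s N with hw
  have key : ∀ x, exp (ham (a • f + b • f') g x) ≤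
      exp (a * log u + b * log w) * (a / u * exp (ham f g x) + b / w * exp (ham f' g x)) :=
    fun x => by
      have c1 := convexOn_exp.2 (Set.mem_univ (ham f g x - log u))
        (Set.mem_univ (ham f' g x - log w)) ha hb hab
      simp only [smul_eq_mul] at c1
      rw [exp_sub, exp_sub, exp_log p1, exp_log p2] at c1
      refine le_of_eq_of_le ?_ ((mul_le_mul_of_nonneg_left c1
        (exp_pos (a * log u + b * log w)).le).trans_eq (by ring))
      rw [← exp_add, ham_add, Pi.add_apply, ham_smul, ham_smul]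
      congr 1
      ring
  have c2 := integral_mono i3 (((i1.const_mul _).add (i2.const_mul _)).const_mul _) key
  simp only [Pi.add_apply] at c2
  rw [integral_const_mul, integral_add (i1.const_mul _) (i2.const_mul _), integral_const_mul,
    integral_const_mul, ← hu, ← hw, div_mul_cancel₀ _ p1.ne', div_mul_cancel₀ _ p2.ne', hab,
    mul_one, ← log_le_iff_le_exp (integral_exp_pos i3)] at c2
  have c3 := mul_le_mul_of_nonneg_left c2 (show (0 : ℝ) ≤ 1 / N by positivity)
  linarith

theorem sys (s : Bool) (hα : 0 < α) : ∃ L : (ℝ → ℝ) → ℝ, Sys s α L ∧ ∀ f, Bd f →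
    IsGLB (values s α f) (L f) ∧ (∀ N, 1 ≤ N → Integrable (press s f) (pat α N)) ∧
      Tendsto (fun N => ∫ g, press s f g ∂pat α N) atTop (𝓝 (L f)) := by
  have h0 : ∀ f, ∃ L : ℝ, Bd f → _ := fun f => by
    by_cases a : Bd f
    · exact (formula s hα a).imp fun _ k _ => k
    · exact ⟨0, fun k => absurd k a⟩
  choose L hL using h0
  have up : ∀ {f}, Bd f → ∀ {k m q c}, Exponents k m → Inc k q → q k < 1 → Ent s k m q c →
      L f ≤ α * down m q k (gstep 1 (1 - q k) f) + c := fun a k m q c a1 a2 a3 a4 =>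
    (hL _ a).1.1 ((mem_values a.1 _).2 ⟨k, m, q, a1, a2, a3, by rwa [add_sub_cancel_left]⟩)
  have low : ∀ {f}, Bd f → ∀ y : ℝ, (∀ k m q c, Exponents k m → Inc k q → q k < 1 →
      Ent s k m q c → y ≤ α * down m q k (gstep 1 (1 - q k) f) + c) → y ≤ L f :=
    fun a y hy => (hL _ a).1.2 fun z hz => by
      obtain ⟨k, m, q, a1, a2, a3, a4⟩ := (mem_values a.1 _).1 hz
      linarith [hy k m q _ a1 a2 a3 a4]
  refine ⟨L, ⟨⟨hα, ?_, ?_, ?_, ?_⟩, ref_prob s, ?_⟩,
    fun f a => ⟨(hL f a).1, (hL f a).2.1, (hL f a).2.2.1⟩⟩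
  · intro f f' k k' a b ha hb hab
    have k'' := (k.smul a).add (k'.smul b)
    refine le_of_tendsto_of_tendsto (hL _ k'').2.2.1
      (((hL _ k).2.2.1.const_mul a).add ((hL _ k').2.2.1.const_mul b)) ?_
    filter_upwards [eventually_ge_atTop 1] with N hN
    have i1 := ((hL _ k).2.1 N hN).const_mul a
    have i2 := ((hL _ k').2.1 N hN).const_mul b
    rw [← integral_const_mul, ← integral_const_mul, ← integral_add i1 i2]
    exact integral_mono ((hL _ k'').2.1 N hN) (i1.add i2) (press_conv hN k k' ha hb hab)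
  · intro f f₁ f₂ k k₁ k₂ a b ha hb hle
    have hS : 0 ≤ a * exp (L f₁ / α) + b * exp (L f₂ / α) := by positivity
    rcases hS.eq_or_lt with hS | hS
    · rw [← hS]; exact (exp_pos _).le
    rw [← log_le_iff_le_exp hS, le_div_iff₀' hα]
    refine low k _ fun n m q c a1 a2 a3 a4 => ?_
    have c1 := down_sup ha hb (adm a1 a2) (k.gs one_pos) (k₁.gs one_pos) (k₂.gs one_pos)
      (sup_step (v := 1 - q n) one_pos le_rfl k k₁ k₂ ha hb hle)
    have c2 : ∀ {f}, Bd f → exp (L f / α) ≤
        exp (down m q n (gstep 1 (1 - q n) f)) * exp (c / α) := fun k => by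
      rw [← exp_add, exp_le_exp, div_le_iff₀' hα, mul_add, mul_div_cancel₀ _ hα.ne']
      exact up k a1 a2 a3 a4
    rw [← le_div_iff₀' hα, log_le_iff_le_exp hS, add_div, mul_div_cancel_left₀ _ hα.ne', exp_add]
    nlinarith [mul_le_mul_of_nonneg_left (c2 k₁) ha, mul_le_mul_of_nonneg_left (c2 k₂) hb,
      mul_le_mul_of_nonneg_right c1 (exp_pos (c / α)).le]
  · intro f f' w R k k' kw hle
    rw [← sub_le_iff_le_add]
    refine low k' _ fun n m q c a1 a2 a3 a4 => ?_
    obtain ⟨B, hB⟩ := k.2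
    obtain ⟨B', hB'⟩ := k'.2
    have c1 := psi_comp a1 a2 a3 (cls_of_bdd k.1 hB) (cls_of_bdd k'.1 hB') (kw.int _) hle
    have c2 := up k a1 a2 a3 a4
    rw [psi_eq' k.1] at c2
    rw [psi_eq' k'.1]
    nlinarith
  · intro f f' w R k k' kw hle
    refine low k' _ fun n m q c a1 a2 a3 a4 => ?_
    have c1 := down_low (R := R) (adm a1 a2) (by rw [a1.2.1]; exact one_pos) (k.gs one_pos)
      (k'.gs one_pos) (kw.avg (1 - q n)) (by
        rw [a1.2.1]
        exact low_step one_pos le_rfl k k' kw fun y => by simpa using hle y)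
    rw [integral_av (adm a1 a2).nonneg (by linarith) (kw.int _), add_sub_cancel, nu_one] at c1
    nlinarith [up k a1 a2 a3 a4]
  · intro f a η hη
    have : ∀ N, IsProbabilityMeasure (pat α N) := fun N => by unfold pat; infer_instance
    have c1 := (ENNReal.continuous_ofReal.tendsto _).comp ((hL f a).2.2.2.div_const η)
    rw [zero_div, ENNReal.ofReal_zero] at c1
    refine tendsto_of_tendsto_of_tendsto_of_le_of_le' tendsto_const_nhds c1
      (Eventually.of_forall fun _ => zero_le) ((eventually_ge_atTop 1).mono fun N hN => ?_)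
    have c2 := mul_meas_ge_le_integral_of_nonneg (μ := pat α N)
      (ae_of_all _ fun g => abs_nonneg (press s f g - L f))
      (((hL f a).2.1 N hN).sub (integrable_const _)).abs η
    rw [← le_div_iff₀' hη] at c2
    refine (measure_mono (t := {g | η ≤ |press s f g - L f|})
      fun g (hg : ¬_ ≤ _) => (not_le.1 hg).le).trans ?_
    rw [← ofReal_measureReal (μ := pat α N)]
    exact ENNReal.ofReal_le_ofReal c2

end Vale.Agent.N157X
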