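import Vale.Agent.N157X.Ldp
import Vale.Agent.N157.Main

/-! The recursion: comparison with the recursion of the starting files, concavity of its
exponential, a lower comparison. -/

namespace Vale.Agent.N157X

open MeasureTheory ProbabilityTheory Filter Real Topology Vale.Agent.P157.Par Vale.Agent.N157

theorem gauss_int {F : ℝ → ℝ} (hF : Measurable F) (x v : ℝ) :
    ∫ y, F y ∂gaussianReal x v.toNNReal = ∫ z, F (x + √v * z) ∂gam := by
  have e : gaussianReal x v.toNNReal = gam.map fun z => x + √v * z := by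
    have h1 : gam.map (fun z => √v * z) = gaussianReal 0 v.toNNReal := by
      rw [gaussianReal_map_const_mul, mul_zero, mul_one]
      congr 1
      ext
      simp [sq_sqrt']
    have h2 := gaussianReal_map_const_add (μ := 0) (v := v.toNNReal) x
    rw [zero_add, ← h1, Measure.map_map (by fun_prop) (by fun_prop)] at h2
    exact h2.symm
  rw [e, integral_map (by fun_prop) hF.aestronglyMeasurable]

theorem step_eq {F : ℝ → ℝ} (hF : Measurable F) (m v : ℝ) :
    (fun x => 1 / m * log (∫ y, exp (m * F y) ∂gaussianReal x v.toNNReal)) = gstep m v F := by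
  funext x
  rw [gauss_int (hF.const_mul m).exp, gstep]

theorem down_succ (m q : ℕ → ℝ) (l : ℕ) {F : ℝ → ℝ} (hF : Measurable F) :
    down m q (l + 1) F = down m q l (gstep (m (l + 1)) (q (l + 1) - q l) F) := by
  rw [down, step_eq hF]

theorem down_eq (m q : ℕ → ℝ) : ∀ (l : ℕ) {F : ℝ → ℝ}, Measurable F →
    down m q l F = ∫ z, cascade m q l F (√(q 0) * z) ∂gam
  | 0, F, hF => by simp [down, cascade, gauss_int hF]
  | l + 1, F, hF => by rw [down_succ m q l hF, down_eq m q l (meas_gstep hF _ _), cascade_succ_def]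

theorem top_eq {f : ℝ → ℝ} (hf : Measurable f) (v : ℝ) :
    (fun x => log (∫ y, exp (f y) ∂gaussianReal x v.toNNReal)) = gstep 1 v f := by
  simpa using step_eq hf 1 v

theorem psi_eq' {f : ℝ → ℝ} (hf : Measurable f) (k : ℕ) (m q : ℕ → ℝ) :
    down m q k (gstep 1 (1 - q k) f) = patternPart f k m q := by
  have e : gstep 1 (1 - q k) f = fun x => log (∫ y, exp (f (x + √(1 - q k) * y)) ∂gam) := by
    funext x
    simp [gstep]
  rw [down_eq m q k (meas_gstep hf _ _), patternPart, e]

section Step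

variable {m v : ℝ} {F F₁ F₂ W : ℝ → ℝ}

theorem Bd.shift (a : Bd F) (x v : ℝ) : Bd fun z => F (x + √v * z) := by
  obtain ⟨a1, B, a2⟩ := a
  exact ⟨by fun_prop, B, fun z => a2 _⟩

theorem Bd.iexp (a : Bd F) (m x v : ℝ) :
    Integrable (fun z => Real.exp (m * F (x + √v * z))) gam :=
  ((a.shift x v).smul m).exp.int gam

theorem exp_gstep (h0 : 0 < m) (a : Bd F) (x : ℝ) :
    exp (m * gstep m v F x) = ∫ z, exp (m * F (x + √v * z)) ∂gam := by
  rw [gstep, ← mul_assoc, mul_one_div_cancel h0.ne', one_mul,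
    exp_log (integral_exp_pos (a.iexp m x v))]

theorem gstep_le (h0 : 0 < m) (a : Bd F) {R : ℝ} (hR : ∀ x, F x ≤ R) (x : ℝ) :
    gstep m v F x ≤ R := by
  have := integral_mono (a.iexp m x v) (integrable_const (exp (m * R))) fun z =>
    exp_le_exp.2 (mul_le_mul_of_nonneg_left (hR _) h0.le)
  rw [← exp_gstep h0 a, integral_const, probReal_univ, one_smul, exp_le_exp] at this
  exact le_of_mul_le_mul_left this h0

theorem Bd.gs (h0 : 0 < m) (a : Bd F) : Bd (gstep m v F) := by
  obtain ⟨B, hB⟩ := a.2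
  refine ⟨meas_gstep a.1 _ _, B, fun x =>
    abs_le.2 ⟨?_, gstep_le h0 a (fun y => (abs_le.1 (hB y)).2) x⟩⟩
  have := integral_mono (integrable_const (Real.exp (m * -B))) (a.iexp m x v) fun z =>
    exp_le_exp.2 (mul_le_mul_of_nonneg_left (abs_le.1 (hB _)).1 h0.le)
  rw [← exp_gstep h0 a, integral_const, probReal_univ, one_smul, exp_le_exp] at this
  exact le_of_mul_le_mul_left this h0

theorem Bd.avg (a : Bd W) (v : ℝ) : Bd (av v W) := by
  obtain ⟨B, hB⟩ := a.2
  have h0 : Measurable fun p : ℝ × ℝ => W (p.1 + √v * p.2) := a.1.comp (by fun_prop)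
  refine ⟨(h0.stronglyMeasurable.integral_prod_right' (ν := gam)).measurable, B, fun x => ?_⟩
  simpa [av] using norm_integral_le_of_norm_le_const (μ := gam) (f := fun z => W (x + √v * z))
    (ae_of_all _ fun z => hB _)

/-- the reverse Minkowski inequality -/
theorem sup_step (h0 : 0 < m) (h1 : m ≤ 1) (k : Bd F) (k₁ : Bd F₁) (k₂ : Bd F₂) {a b : ℝ}
    (ha : 0 ≤ a) (hb : 0 ≤ b) (hle : ∀ x, a * exp (F₁ x) + b * exp (F₂ x) ≤ exp (F x)) (x : ℝ) :
    a * exp (gstep m v F₁ x) + b * exp (gstep m v F₂ x) ≤ exp (gstep m v F x) := by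
  set u := gstep m v F₁ x with hu
  set w := gstep m v F₂ x with hw
  have hS : 0 ≤ a * exp u + b * exp w := by positivity
  rcases hS.eq_or_lt with hS | hS
  · rw [← hS]; exact (exp_pos _).le
  set c := log (a * exp u + b * exp w) with hc
  have ec : exp c = a * exp u + b * exp w := exp_log hS
  have key : ∀ z, a * exp (u - c - m * u + m * c) * exp (m * F₁ (x + √v * z)) +
      b * exp (w - c - m * w + m * c) * exp (m * F₂ (x + √v * z)) ≤
        exp (m * F (x + √v * z)) := fun z => by
    have b0 := hle (x + √v * z)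
    generalize F₁ (x + √v * z) = s at b0 ⊢
    generalize F₂ (x + √v * z) = t at b0 ⊢
    generalize F (x + √v * z) = y at b0 ⊢
    have b1 := mul_le_mul_of_nonneg_left (exp_le h0.le h1 (s - u - y + c))
      (mul_nonneg ha (exp_pos (u - c + m * y)).le)
    have b2 := mul_le_mul_of_nonneg_left (exp_le h0.le h1 (t - w - y + c))
      (mul_nonneg hb (exp_pos (w - c + m * y)).le)
    have e1 : ∀ u s : ℝ, exp (u - c + m * y) * exp (m * (s - u - y + c)) =
        exp (u - c - m * u + m * c) * exp (m * s) := fun u s => by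
      rw [← exp_add, ← exp_add]; congr 1; ring
    have e2 : ∀ u s : ℝ, exp (u - c + m * y) * exp (s - u - y + c) =
        exp (m * y - y) * exp s := fun u s => by
      rw [← exp_add, ← exp_add]; congr 1; ring
    have e3 : ∀ u : ℝ, exp (u - c + m * y) = exp (m * y - c) * exp u := fun u => by
      rw [← exp_add]; congr 1; ring
    have e4 : exp (m * y - c) * exp c = exp (m * y) := by rw [← exp_add, sub_add_cancel]
    have e5 : exp (m * y - y) * exp y = exp (m * y) := by rw [← exp_add, sub_add_cancel]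
    have b3 := mul_le_mul_of_nonneg_left b0 (mul_pos h0 (exp_pos (m * y - y))).le
    rw [mul_assoc, e1] at b1 b2
    have f1 : a * exp (u - c + m * y) * (1 - m + m * exp (s - u - y + c)) =
        (1 - m) * (exp (m * y - c) * (a * exp u)) + m * exp (m * y - y) * (a * exp s) := by
      linear_combination a * (1 - m) * e3 u + a * m * e2 u s
    have f2 : b * exp (w - c + m * y) * (1 - m + m * exp (t - w - y + c)) =
        (1 - m) * (exp (m * y - c) * (b * exp w)) + m * exp (m * y - y) * (b * exp t) := by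
      linear_combination b * (1 - m) * e3 w + b * m * e2 w t
    rw [ec] at e4
    nlinarith
  have := integral_mono (((k₁.iexp m x v).const_mul _).add ((k₂.iexp m x v).const_mul _))
    (k.iexp m x v) key
  rw [integral_add' ((k₁.iexp m x v).const_mul _) ((k₂.iexp m x v).const_mul _),
    integral_const_mul, integral_const_mul, ← exp_gstep h0 k₁, ← exp_gstep h0 k₂,
    ← exp_gstep h0 k, ← hu, ← hw] at this
  have e1 : ∀ u : ℝ, exp (u - c - m * u + m * c) * exp (m * u) = exp (m * c - c) * exp u :=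
    fun u => by rw [← exp_add, ← exp_add]; congr 1; ring
  have e2 : exp (m * c) ≤ exp (m * gstep m v F x) := by
    refine le_of_eq_of_le ?_ this
    rw [mul_assoc, mul_assoc, e1, e1, ← sub_add_cancel (m * c) c, exp_add, sub_add_cancel, ec]
    ring
  rw [← ec, exp_le_exp]
  exact le_of_mul_le_mul_left (exp_le_exp.1 e2) h0

theorem low_step {R m' : ℝ} (h0 : 0 < m) (hm : m ≤ m') (k : Bd F) (k₁ : Bd F₁) (kW : Bd W)
    (hle : ∀ y, F₁ y ≤ R ∧ 0 ≤ W y ∧
      exp (m' * F y) + m' * exp (-R * (1 - m')) * W y ≤ exp (m' * F₁ y)) (x : ℝ) :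
    gstep m v F₁ x ≤ R ∧ 0 ≤ av v W x ∧
      exp (m * gstep m v F x) + m * exp (-R * (1 - m)) * av v W x ≤ exp (m * gstep m v F₁ x) := by
  refine ⟨gstep_le h0 k₁ (fun y => (hle y).1) x, integral_nonneg fun z => (hle _).2.1, ?_⟩
  rw [exp_gstep h0 k, exp_gstep h0 k₁, av, ← integral_const_mul,
    ← integral_add (k.iexp m x v) (((kW.shift x v).int gam).const_mul _)]
  refine integral_mono ((k.iexp m x v).add (((kW.shift x v).int gam).const_mul _)) (k₁.iexp m x v)
    fun z => ?_
  obtain ⟨b1, b2, b3⟩ := hle (x + √v * z)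
  beta_reduce
  generalize F (x + √v * z) = s at b3 ⊢
  generalize F₁ (x + √v * z) = t at b1 b3 ⊢
  generalize W (x + √v * z) = w at b2 b3 ⊢
  have hm' : 0 < m' := h0.trans_le hm
  have c1 := mul_le_mul_of_nonneg_left (exp_le (div_pos h0 hm').le ((div_le_one hm').2 hm)
    (m' * (s - t))) (exp_pos (m * t)).le
  rw [← exp_add, show m * t + m / m' * (m' * (s - t)) = m * s by field_simp; ring] at c1
  have c2 : exp (m' * (s - t)) ≤ 1 - m' * exp (-R * (1 - m') - m' * t) * w := by
    rw [mul_sub, exp_sub, exp_sub, div_le_iff₀ (exp_pos _)]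
    refine (le_sub_iff_add_le.2 b3).trans (le_of_eq ?_)
    have := (exp_pos (m' * t)).ne'
    field_simp
  have c3 : exp (-R * (1 - m)) ≤ exp (m * t) * exp (-R * (1 - m') - m' * t) := by
    rw [← exp_add]
    exact exp_le_exp.2 (by nlinarith)
  have c4 := mul_le_mul_of_nonneg_left c2 (mul_pos (exp_pos (m * t)) (div_pos h0 hm')).le
  have c5 := mul_le_mul_of_nonneg_left c3 (mul_nonneg h0.le b2)
  have c6 : exp (m * t) * (m / m') * (1 - m' * exp (-R * (1 - m') - m' * t) * w) =
      exp (m * t) * (m / m') - m * w * (exp (m * t) * exp (-R * (1 - m') - m' * t)) := by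
    field_simp
  nlinarith

end Step

variable {m q : ℕ → ℝ}

theorem down_sup {a b : ℝ} (ha : 0 ≤ a) (hb : 0 ≤ b) : ∀ {l : ℕ}, Adm l m q →
    ∀ {F F₁ F₂ : ℝ → ℝ}, Bd F → Bd F₁ → Bd F₂ →
    (∀ x, a * exp (F₁ x) + b * exp (F₂ x) ≤ exp (F x)) →
    a * exp (down m q l F₁) + b * exp (down m q l F₂) ≤ exp (down m q l F)
  | 0, _, F, F₁, F₂, k, k₁, k₂, hle => by
    simp only [down]
    set ν := gaussianReal 0 (q 0).toNNReal
    set u := ∫ x, F₁ x ∂ν with hu
    set w := ∫ x, F₂ x ∂ν with hw
    have hS : 0 ≤ a * exp u + b * exp w := by positivity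
    rcases hS.eq_or_lt with hS | hS
    · rw [← hS]; exact (exp_pos _).le
    set c := log (a * exp u + b * exp w) with hc
    have ec : exp c = a * exp u + b * exp w := exp_log hS
    have key : ∀ x, a * exp u * F₁ x + b * exp w * F₂ x +
        (exp c * c - a * exp u * u - b * exp w * w) ≤ exp c * F x := fun x => by
      have b0 := mul_le_mul_of_nonneg_left (hle x) (exp_pos (c - F x)).le
      have b1 := mul_le_mul_of_nonneg_left (add_one_le_exp (F₁ x - u - F x + c))
        (mul_nonneg ha (exp_pos u).le)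
      have b2 := mul_le_mul_of_nonneg_left (add_one_le_exp (F₂ x - w - F x + c))
        (mul_nonneg hb (exp_pos w).le)
      have e1 : ∀ u s : ℝ, exp u * exp (s - u - F x + c) = exp (c - F x) * exp s := fun u s => by
        rw [← exp_add, ← exp_add]; congr 1; ring
      rw [mul_assoc a, mul_assoc a, e1] at b1
      rw [mul_assoc b, mul_assoc b, e1] at b2
      rw [← exp_add, sub_add_cancel, ec] at b0
      rw [ec]
      nlinarith
    have i1 := ((k₁.int ν).const_mul (a * exp u)).add ((k₂.int ν).const_mul (b * exp w))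
    have := integral_mono (i1.add (integrable_const _)) ((k.int ν).const_mul _) key
    rw [integral_add' i1 (integrable_const _), integral_add' ((k₁.int ν).const_mul _)
      ((k₂.int ν).const_mul _), integral_const_mul, integral_const_mul, integral_const_mul,
      integral_const, probReal_univ, one_smul, ← hu, ← hw] at this
    rw [← ec, exp_le_exp]
    exact le_of_mul_le_mul_left (by linarith) (exp_pos c)
  | l + 1, h, F, F₁, F₂, k, k₁, k₂, hle => by
    obtain ⟨-, a2, a3, -⟩ := h.2 l (by omega)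
    rw [down_succ m q l k.1, down_succ m q l k₁.1, down_succ m q l k₂.1]
    exact down_sup ha hb h.of_succ (k.gs a2) (k₁.gs a2) (k₂.gs a2)
      (sup_step a2 a3 k k₁ k₂ ha hb hle)

theorem down_low {R : ℝ} : ∀ {l : ℕ}, Adm l m q → 0 < m (l + 1) → ∀ {F F₁ W : ℝ → ℝ},
    Bd F → Bd F₁ → Bd W → (∀ y, F₁ y ≤ R ∧ 0 ≤ W y ∧ exp (m (l + 1) * F y) +
      m (l + 1) * exp (-R * (1 - m (l + 1))) * W y ≤ exp (m (l + 1) * F₁ y)) →
    down m q l F + exp (-R) * ∫ x, W x ∂nu (q l) ≤ down m q l F₁
  | 0, h, h0, F, F₁, W, k, k₁, kW, hle => by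
    simp only [down]
    rw [nu_eq h.1, ← integral_const_mul, ← integral_add (k.int _) ((kW.int _).const_mul _)]
    refine integral_mono ((k.int _).add ((kW.int _).const_mul _)) (k₁.int _) fun y => ?_
    obtain ⟨b1, b2, b3⟩ := hle y
    show F y + exp (-R) * W y ≤ F₁ y
    generalize m (0 + 1) = a at h0 b3
    have c1 : exp (a * F₁ y) * exp (-R) ≤ exp (-R * (1 - a)) := by
      rw [← exp_add]
      exact exp_le_exp.2 (by nlinarith)
    have c2 := mul_le_mul_of_nonneg_left (add_one_le_exp (-(a * (exp (-R) * W y))))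
      (exp_pos (a * F₁ y)).le
    have c3 := mul_le_mul_of_nonneg_left c1 (mul_nonneg h0.le b2)
    rw [← exp_add] at c2
    have c4 : a * F y ≤ a * F₁ y + -(a * (exp (-R) * W y)) := exp_le_exp.1 (by nlinarith)
    exact le_of_mul_le_mul_left (by linarith) h0
  | l + 1, h, _, F, F₁, W, k, k₁, kW, hle => by
    obtain ⟨a1, a2, -, a4⟩ := h.2 l (by omega)
    have := down_low h.of_succ a2 (k.gs a2) (k₁.gs a2) (kW.avg (q (l + 1) - q l))
      (low_step (v := q (l + 1) - q l) a2 a4 k k₁ kW hle)
    rwa [integral_av h.of_succ.nonneg (sub_nonneg.2 a1) (kW.int _), add_sub_cancel,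
      ← down_succ m q l k.1, ← down_succ m q l k₁.1] at this

end Vale.Agent.N157X
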