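import Mathlib

/-!
# P157: perceptron models, Gibbs measures, the variational formulas
-/

namespace Vale.Agent.N157X

open MeasureTheory ProbabilityTheory Filter Real
open scoped InnerProductSpace

/-- Euclidean space `ℝ^N` -/
abbrev V (N : ℕ) : Type := EuclideanSpace ℝ (Fin N)

/-- bounded Borel functions -/
def Bd (f : ℝ → ℝ) : Prop := Measurable f ∧ ∃ B, ∀ x, |f x| ≤ B

/-- the configurations: the cube `{-1,1}^N` if `s` holds, otherwise the sphere `‖x‖ ^ 2 = N` -/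
def space (s : Bool) (N : ℕ) : Set (V N) :=
  if s then {x | ∀ i, x i = 1 ∨ x i = -1} else {x | ‖x‖ ^ 2 = N}

/-- the measure `μ_N`: uniform on the cube if `s` holds; otherwise the surface measure
of the unit sphere, normalized to total mass one and scaled to the radius `√N` -/
noncomputable def ref (s : Bool) (N : ℕ) : Measure (V N) :=
  if s then uniformOn (space s N)
  else (((volume : Measure (V N)).toSphere Set.univ)⁻¹ • (volume : Measure (V N)).toSphere).map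
    fun u => √(N : ℝ) • u.1

/-- the law of `M = ⌊α N⌋` independent standard Gaussian vectors -/
noncomputable def pat (α : ℝ) (N : ℕ) : Measure (Fin ⌊α * N⌋₊ → V N) :=
  Measure.pi fun _ => stdGaussian (V N)

/-- `∑ₐ f(gᵃ·x/√N)` -/
noncomputable def ham {M N : ℕ} (f : ℝ → ℝ) (g : Fin M → V N) (x : V N) : ℝ :=
  ∑ a, f (⟪g a, x⟫_ℝ / √(N : ℝ))

/-- the vector of the averages `(1/N) ∑ₐ h_i(gᵃ·x/√N)` -/
noncomputable def stat {M N d : ℕ} (h : Fin d → ℝ → ℝ) (g : Fin M → V N) (x : V N) (i : Fin d) :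
    ℝ := ham (h i) g x / N

/-- the pressure `p_N(f)` -/
noncomputable def press (s : Bool) {M N : ℕ} (f : ℝ → ℝ) (g : Fin M → V N) : ℝ :=
  1 / N * log (∫ x, exp (ham f g x) ∂ref s N)

/-- the Gibbs measure: density proportional to `exp (∑ₐ f(gᵃ·x/√N))` with respect to `μ_N` -/
noncomputable def gibbs (s : Bool) {M N : ℕ} (f : ℝ → ℝ) (g : Fin M → V N) : Measure (V N) :=
  (ref s N).tilted (ham f g)

/-- the probability that the patterns fail `P` tends to zero -/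
def Whp (α : ℝ) (P : (N : ℕ) → (Fin ⌊α * N⌋₊ → V N) → Prop) : Prop :=
  Tendsto (fun N => pat α N {g | ¬P N g}) atTop (nhds 0)

/-- the Parisi recursion: `F ↦ (1/m_l) log E exp(m_l F(x + √(q_l - q_(l-1)) z))` for
`l = k, …, 1`, then the mean at `√q_0 z` -/
noncomputable def down (m q : ℕ → ℝ) : ℕ → (ℝ → ℝ) → ℝ
  | 0, F => ∫ x, F x ∂gaussianReal 0 (q 0).toNNReal
  | l + 1, F => down m q l fun x => 1 / m (l + 1) *
      log (∫ y, exp (m (l + 1) * F y) ∂gaussianReal x (q (l + 1) - q l).toNNReal)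

/-- `0 ≤ r_0 ≤ ⋯ ≤ r_k` -/
def Inc (k : ℕ) (r : ℕ → ℝ) : Prop := 0 ≤ r 0 ∧ ∀ l < k, r l ≤ r (l + 1)

/-- `a_l = 1 - q_k + ∑_{l < j ≤ k} m_j (q_j - q_(j-1))` -/
noncomputable def tail (k : ℕ) (m q : ℕ → ℝ) (l : ℕ) : ℝ :=
  1 - q k + ∑ j ∈ Finset.Ico l k, m (j + 1) * (q (j + 1) - q j)

/-- `c` is the entropy term: on the cube a finite supremum over `0 ≤ r_0 ≤ ⋯ ≤ r_k`, on the sphere
the Crisanti-Sommers expression -/
def Ent (s : Bool) (k : ℕ) (m q : ℕ → ℝ) (c : ℝ) : Prop :=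
  if s then IsLUB {y | ∃ r, Inc k r ∧ y = down m r k (fun x => log (cosh x)) - r k / 2 +
    1 / 2 * ∑ l ∈ Finset.range (k + 1), (m (l + 1) - m l) * r l * q l} c
  else c = 1 / 2 * (log (1 - q k) + ∑ l ∈ Finset.range k,
    1 / m (l + 1) * log (tail k m q l / tail k m q (l + 1)) + q 0 / tail k m q 0)

/-- the values of the functional: pattern term plus entropy term, over all `k`,
`0 = m_0 < ⋯ < m_(k+1) = 1` and `0 ≤ q_0 ≤ ⋯ ≤ q_k < 1` -/
def values (s : Bool) (α : ℝ) (f : ℝ → ℝ) : Set ℝ :=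
  {y | ∃ (k : ℕ) (m q : ℕ → ℝ) (c : ℝ), m 0 = 0 ∧ m (k + 1) = 1 ∧ (∀ l ≤ k, m l < m (l + 1)) ∧
    Inc k q ∧ q k < 1 ∧ Ent s k m q c ∧
    y = α * down m q k (fun x => log (∫ y, exp (f y) ∂gaussianReal x (1 - q k).toNNReal)) + c}

/-- the Legendre transform `sup_t (t·y - L(f + t·h) + L(f))` -/
noncomputable def rate (L : (ℝ → ℝ) → ℝ) (f : ℝ → ℝ) {d : ℕ} (h : Fin d → ℝ → ℝ)
    (y : Fin d → ℝ) : EReal :=
  ⨆ t : Fin d → ℝ, (∑ i, t i * y i - L (f + ∑ i, t i • h i) + L f : ℝ)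

end Vale.Agent.N157X
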