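import Vale.Agent.N157X.Rep

/-! Large deviations of the statistics of the margins under the Gibbs measure. -/

namespace Vale.Agent.N157X

open MeasureTheory ProbabilityTheory Filter Real Topology
open scoped InnerProductSpace

section Whp

variable {α : ℝ} {P Q : (N : ℕ) → (Fin ⌊α * N⌋₊ → V N) → Prop}

theorem Whp.mono (h : Whp α P) (hPQ : ∀ᶠ N in atTop, ∀ g, P N g → Q N g) : Whp α Q :=
  tendsto_of_tendsto_of_tendsto_of_le_of_le' tendsto_const_nhds h
    (Eventually.of_forall fun _ => zero_le)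
    (hPQ.mono fun _ k => measure_mono fun g (a : ¬Q _ g) b => a (k g b))

theorem Whp.and (h : Whp α P) (h' : Whp α Q) : Whp α fun N g => P N g ∧ Q N g := by
  have := Tendsto.add h h'
  rw [add_zero] at this
  refine tendsto_of_tendsto_of_tendsto_of_le_of_le tendsto_const_nhds this (fun _ => zero_le)
    fun N => (measure_mono fun g a => ?_).trans (measure_union_le _ _)
  exact not_and_or.1 a

theorem whp_true : Whp α fun _ _ => True := by
  simp [Whp]

theorem whp_all {ι : Type} {P : ι → (N : ℕ) → (Fin ⌊α * N⌋₊ → V N) → Prop} (T : Finset ι)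
    (h : ∀ i ∈ T, Whp α (P i)) : Whp α fun N g => ∀ i ∈ T, P i N g := by
  classical
  induction T using Finset.induction_on with
  | empty => exact whp_true.mono (by simp)
  | insert j T _ ih =>
    exact ((h j (by simp)).and (ih fun i hi => h i (by simp [hi]))).mono (by simp +contextual)

theorem Whp.ex (h : Whp α P) : ∀ᶠ N in atTop, ∃ g, P N g := by
  filter_upwards [h.eventually (gt_mem_nhds zero_lt_one)] with N hN
  by_contra k
  push Not at k
  rw [Set.eq_univ_of_forall (s := {g | ¬P N g}) k, pat, measure_univ] at hN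
  exact hN.ne rfl

end Whp

section Fin

variable {M N : ℕ} {f h : ℝ → ℝ} (g : Fin M → V N)

theorem ham_meas (a : Measurable f) : Measurable (ham f g) := by
  unfold ham
  fun_prop

theorem ham_le {B : ℝ} (hB : ∀ x, |f x| ≤ B) (x : V N) : |ham f g x| ≤ M * B :=
  (Finset.abs_sum_le_sum_abs _ _).trans ((Finset.sum_le_sum fun a _ => hB _).trans (by simp))

theorem ham_int (a : Bd f) (μ : Measure (V N)) [IsFiniteMeasure μ] :
    Integrable (fun x => exp (ham f g x)) μ := by
  obtain ⟨B, hB⟩ := a.2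
  exact Integrable.of_bound (ham_meas g a.1).exp.aestronglyMeasurable (exp (M * B))
    (ae_of_all _ fun x => by
      rw [Real.norm_eq_abs, abs_of_pos (exp_pos _)]
      exact exp_le_exp.2 ((le_abs_self _).trans (ham_le g hB x)))

theorem ham_add : ham (f + h) g = ham f g + ham h g := by
  funext x
  simp [ham, Finset.sum_add_distrib]

theorem ham_smul (t : ℝ) (x : V N) : ham (t • h) g x = t * ham h g x := by
  simp [ham, Finset.mul_sum]

theorem ham_sum {d : ℕ} (h : Fin d → ℝ → ℝ) (t : Fin d → ℝ) (x : V N) :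
    ham (∑ i, t i • h i) g x / N = ∑ i, t i * (ham (h i) g x / N) := by
  simp only [ham, Finset.sum_apply, Pi.smul_apply, smul_eq_mul, ← mul_div_assoc, ← Finset.sum_div,
    Finset.mul_sum]
  rw [Finset.sum_comm]

variable {s : Bool} [IsProbabilityMeasure (ref s N)]

theorem gibbs_prob (a : Bd f) : IsProbabilityMeasure (gibbs s f g) :=
  isProbabilityMeasure_tilted (ham_int g a _)

theorem int_exp (hN : 1 ≤ N) (a : Bd f) (b : Bd h) : ∫ x, exp (ham h g x) ∂gibbs s f g =
    exp (N * (press s (f + h) g - press s f g)) := by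
  have : (N : ℝ) ≠ 0 := by positivity
  rw [gibbs, integral_exp_tilted, ← ham_add, press, press, ← mul_sub, ← mul_assoc,
    mul_one_div_cancel this, one_mul, exp_sub, exp_log (integral_exp_pos (ham_int g a _)),
    exp_log (integral_exp_pos (ham_int g (a.add b) _))]

theorem tilt_le (hN : 1 ≤ N) (a : Bd f) (b : Bd h) {A : Set (V N)} (hA : MeasurableSet A) {c : ℝ}
    (hc : ∀ x ∈ A, ham h g x ≤ c) : (gibbs s (f + h) g).real A ≤
      exp (c - N * (press s (f + h) g - press s f g)) * (gibbs s f g).real A := by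
  have := gibbs_prob (s := s) g a
  have e : gibbs s (f + h) g = (gibbs s f g).tilted (ham h g) := by
    rw [gibbs, gibbs, tilted_tilted (ham_int g a _), ham_add]
  rw [e, measureReal_def, tilted_apply_eq_ofReal_integral' _ hA, int_exp (s := s) g hN a b,
    ENNReal.toReal_ofReal (integral_nonneg fun x => div_nonneg (exp_pos _).le (exp_pos _).le),
    exp_sub]
  have := setIntegral_mono_on (s := A) (μ := gibbs s f g)
    ((ham_int g b _).div_const (exp (N * (press s (f + h) g - press s f g)))).integrableOn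
    (integrable_const (exp c / exp (N * (press s (f + h) g - press s f g)))).integrableOn hA
    fun x hx => div_le_div_of_nonneg_right (exp_le_exp.2 (hc x hx)) (exp_pos _).le
  rwa [setIntegral_const, smul_eq_mul, mul_comm (Measure.real _ _)] at this

end Fin

/-- the properties of the finite systems which are used -/
structure Sys (s : Bool) (α : ℝ) (L : (ℝ → ℝ) → ℝ) : Prop extends Ax α L where
  prob : ∀ N, 1 ≤ N → IsProbabilityMeasure (ref s N)
  lim : ∀ {f : ℝ → ℝ}, Bd f → ∀ η : ℝ, 0 < η → Whp α fun _ g => |press s f g - L f| ≤ η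

/-- sets of Gibbs measure exponentially smaller than `exp (-r N)` -/
def Small (s : Bool) (α : ℝ) (f : ℝ → ℝ) (r : ℝ)
    (A : (N : ℕ) → (Fin ⌊α * N⌋₊ → V N) → Set (V N)) : Prop :=
  ∃ r', r < r' ∧ Whp α fun N g => (gibbs s f g).real (A N g) ≤ exp (-r' * N)

variable {s : Bool} {α r : ℝ} {L : (ℝ → ℝ) → ℝ} {f h : ℝ → ℝ}
  {A A' : (N : ℕ) → (Fin ⌊α * N⌋₊ → V N) → Set (V N)}

theorem Small.whp (k : Small s α f r A) :
    Whp α fun N g => (gibbs s f g).real (A N g) ≤ exp (-r * N) := by
  obtain ⟨r', h1, h2⟩ := k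
  exact h2.mono (Eventually.of_forall fun N g a => a.trans
    (exp_le_exp.2 (mul_le_mul_of_nonneg_right (by linarith) N.cast_nonneg)))

theorem ev_half {c : ℝ} (hc : 0 < c) : ∀ᶠ N : ℕ in atTop, 1 ≤ N ∧ exp (-c * N) ≤ 1 / 2 := by
  have h1 : Tendsto (fun N : ℕ => exp (-c * N)) atTop (𝓝 0) :=
    tendsto_exp_atBot.comp (tendsto_natCast_atTop_atTop.const_mul_atTop_of_neg (by linarith))
  exact (eventually_ge_atTop 1).and (h1.eventually (ge_mem_nhds (by norm_num)))

variable (S : Sys s α L) (a : Bd f)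
include S a

theorem Small.mono (k : Small s α f r A') (hA : ∀ N, 1 ≤ N → ∀ g, A N g ⊆ A' N g) :
    Small s α f r A := by
  obtain ⟨r', h1, h2⟩ := k
  refine ⟨r', h1, h2.mono ((eventually_ge_atTop 1).mono fun N hN g b => le_trans ?_ b)⟩
  have := S.prob N hN
  have := gibbs_prob (s := s) g a
  exact measureReal_mono (hA N hN g)

omit S a in
theorem Small.union (k : Small s α f r A) (k' : Small s α f r A') :
    Small s α f r fun N g => A N g ∪ A' N g := by
  obtain ⟨u, h1, h2⟩ := k
  obtain ⟨v, h3, h4⟩ := k'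
  have h5 : r < min u v := lt_min h1 h3
  refine ⟨(r + min u v) / 2, by linarith, (h2.and h4).mono
    ((ev_half (c := (min u v - r) / 2) (by linarith)).mono fun N hN g b => ?_)⟩
  have c1 : ∀ w, min u v ≤ w → exp (-w * N) ≤ 1 / 2 * exp (-((r + min u v) / 2) * N) :=
    fun w hw => by
      refine le_trans ?_ (mul_le_mul_of_nonneg_right hN.2 (exp_pos _).le)
      rw [← exp_add]
      exact exp_le_exp.2 (by nlinarith [N.cast_nonneg (α := ℝ)])
  linarith [measureReal_union_le (μ := gibbs s f g) (A N g) (A' N g), b.1, b.2,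
    c1 u (min_le_left _ _), c1 v (min_le_right _ _)]

omit S a in
theorem small_all {ι : Type} {A : ι → (N : ℕ) → (Fin ⌊α * N⌋₊ → V N) → Set (V N)} (T : Finset ι)
    (k : ∀ i ∈ T, Small s α f r (A i)) : Small s α f r fun N g => ⋃ i ∈ T, A i N g := by
  classical
  induction T using Finset.induction_on with
  | empty => exact ⟨r + 1, by linarith, whp_true.mono (by simp [(exp_pos _).le])⟩
  | insert j T _ ih =>
    simpa only [Finset.set_biUnion_insert] using
      (k j (by simp)).union (ih fun i hi => k i (by simp [hi]))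

theorem chern (b : Bd h) {c : ℝ} (hr : r < c - (L (f + h) - L f)) :
    Small s α f r fun N g => {x | c ≤ ham h g x / N} := by
  set η := (c - (L (f + h) - L f) - r) / 3 with hη
  refine ⟨r + η, by linarith, ((S.lim a η (by linarith)).and (S.lim (a.add b) η (by linarith))).mono
    ((eventually_ge_atTop 1).mono fun N hN g k => ?_)⟩
  have := S.prob N hN
  have := gibbs_prob (s := s) g a
  have hN' : (0 : ℝ) < N := by positivity
  have c1 := mul_meas_ge_le_integral_of_nonneg (μ := gibbs s f g)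
    (ae_of_all _ fun x => (exp_pos (ham h g x)).le) (ham_int g b _) (exp (c * N))
  simp only [exp_le_exp, ← le_div_iff₀ hN'] at c1
  rw [int_exp g hN a b, ← le_div_iff₀' (exp_pos _), ← exp_sub] at c1
  refine c1.trans (exp_le_exp.2 ?_)
  nlinarith [abs_le.1 k.1, abs_le.1 k.2]

theorem conc {ν : Measure ℝ} (G : Grad α L f ν) (b : Bd h) {ε : ℝ} (hε : 0 < ε) :
    Small s α f 0 fun N g => {x | ε ≤ |ham h g x / N - α * ∫ y, h y ∂ν|} := by
  obtain ⟨C, hC⟩ := b.2
  have hα := S.pos
  set t := ε / (α * C ^ 2 + 1) with ht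
  have ht0 : 0 < t := by positivity
  have ht1 : t * (α * C ^ 2 + 1) = ε := div_mul_cancel₀ _ (by positivity)
  have key : ∀ u : ℝ, |u| = t → Small s α f 0 fun N g =>
      {x | u * (α * ∫ y, h y ∂ν) + t * ε ≤ ham (u • h) g x / N} := fun u hu => by
    have c1 := G.quad S.toAx a (b.smul u) (C := t * C) fun x => by
      rw [Pi.smul_apply, smul_eq_mul, abs_mul, hu]
      exact mul_le_mul_of_nonneg_left (hC x) ht0.le
    simp only [Pi.smul_apply, smul_eq_mul, integral_const_mul] at c1
    exact chern S a (b.smul u) (by nlinarith [mul_pos ht0 ht0])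
  refine ((key t (abs_of_pos ht0)).union (key (-t) (by rw [abs_neg, abs_of_pos ht0]))).mono S a
    fun N _ g x hx => ?_
  simp only [Set.mem_ofPred_eq, Set.mem_union, ham_smul, mul_div_assoc] at hx ⊢
  rcases le_abs.1 hx with c | c
  · left; nlinarith
  · right; nlinarith

variable {d : ℕ} {h : Fin d → ℝ → ℝ} (b : ∀ i, Bd (h i))
include b

omit a in
theorem box : ∃ R : ℝ, ∀ N : ℕ, 1 ≤ N → ∀ (g : Fin ⌊α * N⌋₊ → V N) (x : V N),
    (fun i => ham (h i) g x / N) ∈ Metric.closedBall (0 : Fin d → ℝ) R := by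
  choose C hC using fun i => (b i).2
  have h0 : ∀ i, 0 ≤ C i := fun i => (abs_nonneg _).trans (hC i 0)
  have h1 : 0 ≤ ∑ i, C i := Finset.sum_nonneg fun i _ => h0 i
  have hα := S.pos
  refine ⟨α * ∑ i, C i, fun N hN g x => ?_⟩
  have hN' : (0 : ℝ) < N := by positivity
  rw [mem_closedBall_zero_iff, pi_norm_le_iff_of_nonneg (by positivity)]
  intro i
  rw [Real.norm_eq_abs, abs_div, abs_of_pos hN', div_le_iff₀ hN']
  have c1 := Finset.single_le_sum (fun i _ => h0 i) (Finset.mem_univ i)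
  have c2 : (⌊α * N⌋₊ : ℝ) ≤ α * N := Nat.floor_le (by positivity)
  exact (ham_le g (hC i) x).trans
    ((mul_le_mul c2 c1 (h0 i) (by positivity)).trans_eq (by ring))

theorem upper {K : Set (Fin d → ℝ)} (hK : IsClosed K) (hr : ∀ y ∈ K, (r : EReal) < rate L f h y) :
    Small s α f r fun N g => {x | (fun i => ham (h i) g x / N) ∈ K} := by
  obtain ⟨R, hR⟩ := box S b
  have h1 : ∀ y : K, ∃ (t : Fin d → ℝ) (c : ℝ), c < ∑ i, t i * y.1 i ∧
      r < c - (L (f + ∑ i, t i • h i) - L f) := fun y => by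
    obtain ⟨t, ht⟩ := lt_iSup_iff.1 (hr y y.2)
    obtain ⟨c, c1, c2⟩ := exists_between (EReal.coe_lt_coe_iff.1 ht)
    exact ⟨t, c + (L (f + ∑ i, t i • h i) - L f), by linarith, by linarith⟩
  choose t c h1 h2 using h1
  obtain ⟨T, hT⟩ := ((isCompact_closedBall (0 : Fin d → ℝ) R).inter_left hK).elim_finite_subcover
    (fun y : K => {z | c y < ∑ i, t y i * z i})
    (fun y => isOpen_lt continuous_const (by fun_prop))
    fun y hy => Set.mem_iUnion.2 ⟨⟨y, hy.1⟩, h1 _⟩
  refine (small_all T fun y _ => chern S a (Bd.sum b (t y)) (h2 y)).mono S a fun N hN g x hx => ?_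
  obtain ⟨y, hy, k⟩ := Set.mem_iUnion₂.1 (hT ⟨hx, hR N hN g x⟩)
  refine Set.mem_iUnion₂.2 ⟨y, hy, ?_⟩
  rw [Set.mem_ofPred_eq, ham_sum]
  exact le_of_lt k

omit S a in
theorem unif : ∃ C : ℝ, 0 ≤ C ∧ ∀ i x, |h i x| ≤ C := by
  choose C hC using fun i => (b i).2
  have h0 : ∀ i, 0 ≤ C i := fun i => (abs_nonneg _).trans (hC i 0)
  exact ⟨∑ i, C i, Finset.sum_nonneg fun i _ => h0 i, fun i x => (hC i x).trans
    (Finset.single_le_sum (fun i _ => h0 i) (Finset.mem_univ i))⟩

theorem cont_L : Continuous fun t : Fin d → ℝ => L (f + ∑ i, t i • h i) := by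
  obtain ⟨C, h0, hC⟩ := unif b
  refine (LipschitzWith.of_le_add_mul' (α * (d * C)) fun t u => ?_).continuous
  have := S.toAx.shift (a.add (Bd.sum b t)) (a.add (Bd.sum b u)) (c := -(d * C * dist t u))
    fun x => by
      have c1 : ∑ i, (t i * h i x - u i * h i x) ≤ ∑ _i : Fin d, C * dist t u :=
        Finset.sum_le_sum fun i _ => by
          rw [← sub_mul, mul_comm C]
          refine (le_abs_self _).trans ?_
          rw [abs_mul]
          exact mul_le_mul (dist_le_pi_dist t u i) (hC i x) (abs_nonneg _) dist_nonneg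
      simp only [Finset.sum_sub_distrib, Finset.sum_const, Finset.card_univ, Fintype.card_fin,
        nsmul_eq_mul] at c1
      simp only [Pi.add_apply, Finset.sum_apply, Pi.smul_apply, smul_eq_mul]
      linarith
  linarith

/-- points where the Legendre transform is finite are limits of gradients -/
theorem exposed {y : Fin d → ℝ} {ρ δ : ℝ} (hδ : 0 < δ)
    (hρ : ∀ t : Fin d → ℝ, ∑ i, t i * y i - L (f + ∑ i, t i • h i) + L f ≤ ρ) :
    ∃ (t : Fin d → ℝ) (ν : Measure ℝ), Grad α L (f + ∑ i, t i • h i) ν ∧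
      (∀ i, |α * ∫ x, h i x ∂ν - y i| ≤ δ) ∧
      ∑ i, t i * (α * ∫ x, h i x ∂ν) - L (f + ∑ i, t i • h i) + L f ≤ ρ := by
  obtain ⟨C, -, hC⟩ := unif b
  have hρ0 : 0 ≤ ρ := by simpa using hρ 0
  set ε := δ ^ 2 / (4 * (ρ + 1)) with hε
  have hε0 : 0 < ε := by positivity
  have hε1 : ε * (4 * (ρ + 1)) = δ ^ 2 := div_mul_cancel₀ _ (by positivity)
  have h1 : ∀ t : Fin d → ℝ, L (f + ∑ i, t i • h i) - ∑ i, t i * y i + ε * ∑ i, t i ^ 2 ≤ L f →
      ∀ i, ε * t i ^ 2 ≤ ρ := fun t ht i => by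
    have := mul_le_mul_of_nonneg_left
      (Finset.single_le_sum (fun i _ => sq_nonneg (t i)) (Finset.mem_univ i)) hε0.le
    linarith [hρ t]
  obtain ⟨t, ht⟩ := Continuous.exists_forall_le_of_isBounded
    (f := fun t : Fin d → ℝ => L (f + ∑ i, t i • h i) - ∑ i, t i * y i + ε * ∑ i, t i ^ 2)
    (((cont_L S a b).sub (by fun_prop)).add (by fun_prop)) 0
    ((Metric.isBounded_closedBall (x := 0) (r := ρ / ε + 1)).subset fun t k => by
      rw [mem_closedBall_zero_iff, pi_norm_le_iff_of_nonneg (by positivity)]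
      intro i
      have c1 := h1 t (by simpa using k) i
      rw [← le_div_iff₀' hε0, ← sq_abs] at c1
      rw [Real.norm_eq_abs]
      nlinarith [sq_nonneg (|t i| - 1), abs_nonneg (t i)])
  obtain ⟨ν, -, -, G⟩ := S.toAx.grad (a.add (Bd.sum b t))
  have h2 : ∀ i, y i - 2 * ε * t i = α * ∫ x, h i x ∂ν := fun i =>
    eq_of_quad (K := α * C ^ 2 + ε) fun u => by
      have c1 := G.quad S.toAx (a.add (Bd.sum b t)) ((b i).smul u) (C := |u| * C) fun x => by
        rw [Pi.smul_apply, smul_eq_mul, abs_mul]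
        exact mul_le_mul_of_nonneg_left (hC i x) (abs_nonneg u)
      have c2 := ht (t + Pi.single i u)
      have e1 : f + ∑ j, (t + Pi.single i u : Fin d → ℝ) j • h j =
          f + ∑ j, t j • h j + u • h i := by
        simp [add_smul, Finset.sum_add_distrib, Pi.single_apply, add_assoc]
      have e2 : ∑ j, (t + Pi.single i u : Fin d → ℝ) j * y j = ∑ j, t j * y j + u * y i := by
        simp [add_mul, Finset.sum_add_distrib, Pi.single_apply]
      have e3 : ∑ j, (t + Pi.single i u : Fin d → ℝ) j ^ 2 =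
          ∑ j, t j ^ 2 + 2 * t i * u + u ^ 2 := by
        simp [add_sq, Finset.sum_add_distrib, Pi.single_apply]
      simp only [e1, e2, e3] at c2
      simp only [Pi.smul_apply, smul_eq_mul, integral_const_mul, mul_pow, sq_abs] at c1
      linarith
  refine ⟨t, ν, G, fun i => ?_, ?_⟩
  · have c1 := h1 t (by simpa using ht 0) i
    rw [← h2 i]
    refine abs_le_of_sq_le_sq ?_ hδ.le
    nlinarith [mul_le_mul_of_nonneg_left c1 hε0.le]
  · have c1 : ∑ i, t i * (α * ∫ x, h i x ∂ν) ≤ ∑ i, t i * y i := Finset.sum_le_sum fun i _ => by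
      rw [← h2 i]
      nlinarith [mul_nonneg hε0.le (sq_nonneg (t i))]
    linarith [hρ t]

theorem lower {U : Set (Fin d → ℝ)} (hU : IsOpen U) (hr : ∃ y ∈ U, rate L f h y < r) :
    Whp α fun N g => exp (-r * N) ≤
      (gibbs s f g).real {x | (fun i => ham (h i) g x / N) ∈ U} := by
  obtain ⟨y, hy, hr⟩ := hr
  obtain ⟨ρ, h1, h2⟩ := EReal.lt_iff_exists_real_btwn.1 hr
  replace h2 := EReal.coe_lt_coe_iff.1 h2
  obtain ⟨δ, hδ, hB⟩ := Metric.isOpen_iff.1 hU y hy
  obtain ⟨t, ν, G, h3, h4⟩ := exposed S a b (y := y) (ρ := ρ) (half_pos hδ) fun t =>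
    EReal.coe_le_coe_iff.1 ((le_iSup (fun t : Fin d → ℝ =>
      ((∑ i, t i * y i - L (f + ∑ i, t i • h i) + L f : ℝ) : EReal)) t).trans h1.le)
  have a' := a.add (Bd.sum b t)
  set η := (r - ρ) / 4 with hη
  have hη0 : 0 < η := by linarith
  have hT : 0 ≤ ∑ i, |t i| := Finset.sum_nonneg fun i _ => abs_nonneg _
  set ε := min (δ / 2) (η / (∑ i, |t i| + 1)) with hε
  have hε0 : 0 < ε := lt_min (half_pos hδ) (by positivity)
  have hε1 : ε * (∑ i, |t i| + 1) ≤ η := (le_div_iff₀ (by positivity)).1 (min_le_right _ _)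
  obtain ⟨c, hc, h5⟩ := small_all Finset.univ fun i _ => conc S a' G (b i) hε0
  refine ((h5.and (S.lim a η hη0)).and (S.lim a' η hη0)).mono
    (((ev_half hc).and (ev_half hη0)).mono fun N hN g k => ?_)
  obtain ⟨⟨hN, n1⟩, -, n2⟩ := hN
  obtain ⟨⟨k1, k2⟩, k3⟩ := k
  have := S.prob N hN
  have := gibbs_prob (s := s) g a
  have := gibbs_prob (s := s) g a'
  have hN' : (0 : ℝ) < N := by positivity
  set A := ⋃ i ∈ Finset.univ, {x | ε ≤ |ham (h i) g x / N - α * ∫ y, h i y ∂ν|} with hA
  have mA : MeasurableSet A := Finset.measurableSet_biUnion _ fun i _ =>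
    measurableSet_le measurable_const (((ham_meas g (b i).1).div_const _).sub_const _).abs
  have iA : ∀ x ∈ Aᶜ, ∀ i, |ham (h i) g x / N - α * ∫ y, h i y ∂ν| < ε := by
    simp [hA]
  have c1 := tilt_le (s := s) g hN a (Bd.sum b t) mA.compl
    (c := (∑ i, t i * (α * ∫ x, h i x ∂ν) + η) * N) fun x hx => by
      rw [← div_le_iff₀ hN', ham_sum]
      have d1 : ∑ i, t i * (ham (h i) g x / N) ≤
          ∑ i, (t i * (α * ∫ x, h i x ∂ν) + ε * |t i|) := Finset.sum_le_sum fun i _ => by
        have d2 := le_abs_self (t i * (ham (h i) g x / N - α * ∫ y, h i y ∂ν))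
        rw [abs_mul] at d2
        nlinarith [iA x hx i, abs_nonneg (t i)]
      rw [Finset.sum_add_distrib, ← Finset.mul_sum] at d1
      linarith
  rw [probReal_compl_eq_one_sub mA] at c1
  have c2 : (gibbs s f g).real Aᶜ ≤
      (gibbs s f g).real {x | (fun i => ham (h i) g x / N) ∈ U} :=
    measureReal_mono fun x hx => hB ((dist_pi_lt_iff hδ).2 fun i => by
      have d1 := abs_lt.1 (iA x hx i)
      have d2 := abs_le.1 (h3 i)
      have d3 : ε ≤ δ / 2 := min_le_left _ _
      rw [Real.dist_eq, abs_lt]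
      constructor <;> linarith [d1.1, d1.2, d2.1, d2.2])
  refine le_trans ?_ c2
  rw [← div_le_iff₀' (exp_pos _)] at c1
  refine le_trans ?_ c1
  rw [le_div_iff₀ (exp_pos _), ← exp_add]
  refine (exp_le_exp.2 ?_).trans (n2.trans (by linarith))
  nlinarith [abs_le.1 k2, abs_le.1 k3]

end Vale.Agent.N157X
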