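import Vale.Agent.N157X.Abs

/-! The derivative is the integral against a probability measure. -/

namespace Vale.Agent.N157X

open MeasureTheory ProbabilityTheory Filter Real Topology

theorem rep {p : (ℝ → ℝ) → ℝ} {K : ℝ} {γ : Measure ℝ} [IsFiniteMeasure γ]
    (h1 : ∀ h h', Bd h → Bd h' → p (h + h') = p h + p h')
    (h2 : ∀ h (c : ℝ), Bd h → p (c • h) = c * p h)
    (h4 : ∀ h h', Bd h → Bd h' → (∀ x, h x ≤ h' x) → p h ≤ p h')
    (h5 : ∀ h, Bd h → (∀ x, 0 ≤ h x) → p h ≤ K * ∫ x, h x ∂γ) :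
    ∃ ν : Measure ℝ, IsFiniteMeasure ν ∧ ∀ h, Bd h → p h = ∫ x, h x ∂ν := by
  have z : p 0 = 0 := by simpa using h2 0 0 (Bd.const 0)
  have cont : ∀ (u : ℕ → ℝ → ℝ) (h : ℝ → ℝ) (C : ℝ), (∀ n, Measurable (u n)) → Bd h →
      (∀ n x, |u n x| ≤ C) → (∀ x, Tendsto (fun n => u n x) atTop (𝓝 (h x))) →
      Tendsto (fun n => p (u n)) atTop (𝓝 (p h)) := by
    intro u h C hu b hC ht
    obtain ⟨C', hC'⟩ := b.2
    have bu : ∀ n, Bd (u n) := fun n => ⟨hu n, C, hC n⟩
    have a1 : Tendsto (fun n => ∫ x, |u n x - h x| ∂γ) atTop (𝓝 (∫ _, (0 : ℝ) ∂γ)) :=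
      tendsto_integral_of_dominated_convergence (fun _ => C + C')
        (fun n => ((hu n).sub b.1).abs.aestronglyMeasurable) (integrable_const _)
        (fun n => ae_of_all _ fun x => by
          rw [Real.norm_eq_abs, abs_abs]
          exact (abs_sub _ _).trans (add_le_add (hC n x) (hC' x)))
        (ae_of_all _ fun x => by simpa using ((ht x).sub_const (h x)).abs)
    rw [integral_zero] at a1
    rw [tendsto_iff_dist_tendsto_zero]
    refine squeeze_zero (fun _ => dist_nonneg) (fun n => ?_) (by simpa using a1.const_mul K)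
    have b1 := ((bu n).sub b).abs
    have a2 := h5 _ b1 fun x => abs_nonneg _
    have a3 := h4 _ _ (bu n) (b.add b1) fun x => by
      simp only [Pi.add_apply, Pi.sub_apply]
      linarith [le_abs_self (u n x - h x)]
    have a4 := h4 _ _ b ((bu n).add b1) fun x => by
      simp only [Pi.add_apply, Pi.sub_apply]
      linarith [neg_abs_le (u n x - h x)]
    rw [h1 _ _ b b1] at a3
    rw [h1 _ _ (bu n) b1] at a4
    simp only [Pi.sub_apply] at a2 a3 a4
    rw [Real.dist_eq, abs_le]
    constructor <;> linarith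
  have pos : ∀ A, MeasurableSet A → 0 ≤ p (A.indicator fun _ => 1) := fun A hA =>
    z.ge.trans (h4 _ _ (Bd.const 0) (Bd.ind hA 1) fun x =>
      Set.indicator_nonneg (fun _ _ => zero_le_one) x)
  let ν : Measure ℝ := Measure.ofMeasurable
    (fun A _ => ENNReal.ofReal (p (A.indicator fun _ => 1)))
    (by
      rw [Set.indicator_empty]
      exact ENNReal.ofReal_eq_zero.2 z.le)
    (by
      intro A hA hd
      have a1 : ∀ n, p (∑ i ∈ Finset.range n, (A i).indicator fun _ => 1) =
          ∑ i ∈ Finset.range n, p ((A i).indicator fun _ => 1) := fun n => by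
        induction n with
        | zero => simpa using z
        | succ n ih =>
          rw [Finset.sum_range_succ, Finset.sum_range_succ, h1 _ _
            (Finset.sum_induction _ Bd (fun _ _ => Bd.add) (Bd.const 0) fun i _ => Bd.ind (hA i) 1)
            (Bd.ind (hA n) 1), ih]
      have a2 : ∀ x, HasSum (fun i => (A i).indicator (fun _ => (1 : ℝ)) x)
          ((⋃ i, A i).indicator (fun _ => 1) x) := fun x => by
        by_cases hx : x ∈ ⋃ i, A i
        · obtain ⟨j, hj⟩ := Set.mem_iUnion.1 hx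
          rw [Set.indicator_of_mem hx]
          convert hasSum_single j fun i hi => Set.indicator_of_notMem
            (fun k => Set.disjoint_left.1 (hd hi) k hj) (fun _ => (1 : ℝ))
          rw [Set.indicator_of_mem hj]
        · rw [Set.indicator_of_notMem hx]
          convert hasSum_zero (α := ℝ) (β := ℕ) using 2 with i
          exact Set.indicator_of_notMem (fun k => hx (Set.mem_iUnion.2 ⟨i, k⟩)) _
      have a0 : ∀ i x, 0 ≤ (A i).indicator (fun _ => (1 : ℝ)) x := fun i x =>
        Set.indicator_nonneg (fun _ _ => zero_le_one) x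
      have a3 := cont (fun n => ∑ i ∈ Finset.range n, (A i).indicator fun _ => 1) _ 1
        (fun n => (Finset.sum_induction _ Bd (fun _ _ => Bd.add) (Bd.const 0)
          fun i _ => Bd.ind (hA i) 1).1)
        (Bd.ind (MeasurableSet.iUnion hA) 1) (fun n x => by
          rw [Finset.sum_apply, abs_of_nonneg (Finset.sum_nonneg fun i _ => a0 i x)]
          exact (sum_le_hasSum _ (fun i _ => a0 i x) (a2 x)).trans
            (Set.indicator_le_self' (fun _ _ => zero_le_one) x))
        fun x => by simpa only [Finset.sum_apply] using (a2 x).tendsto_sum_nat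
      simp only [a1] at a3
      have a4 := (hasSum_iff_tendsto_nat_of_nonneg (fun i => pos _ (hA i)) _).2 a3
      rw [← ENNReal.ofReal_tsum_of_nonneg (fun i => pos _ (hA i)) a4.summable, a4.tsum_eq])
  have e : ∀ A, MeasurableSet A → ν A = ENNReal.ofReal (p (A.indicator fun _ => 1)) :=
    fun A hA => Measure.ofMeasurable_apply A hA
  have fin : IsFiniteMeasure ν := ⟨by rw [e _ MeasurableSet.univ]; exact ENNReal.ofReal_lt_top⟩
  have bs : ∀ s : SimpleFunc ℝ ℝ, Bd s := fun s => ⟨s.measurable, s.exists_forall_norm_le⟩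
  have sim : ∀ s : SimpleFunc ℝ ℝ, p s = ∫ x, s x ∂ν := fun s => by
    induction s using SimpleFunc.induction with
    | @const c A hA =>
      have e1 : (SimpleFunc.piecewise A hA (SimpleFunc.const _ c) (SimpleFunc.const _ 0) : ℝ → ℝ) =
          c • A.indicator fun _ => (1 : ℝ) := by
        funext x
        by_cases hx : x ∈ A <;> simp [hx]
      rw [e1, h2 _ _ (Bd.ind hA 1)]
      simp only [Pi.smul_apply, smul_eq_mul]
      rw [integral_const_mul, integral_indicator_const _ hA, smul_eq_mul, mul_one, measureReal_def,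
        e A hA, ENNReal.toReal_ofReal (pos A hA)]
    | @add s s' _ i1 i2 =>
      rw [SimpleFunc.coe_add, h1 _ _ (bs s) (bs s'), i1, i2]
      exact (integral_add ((bs s).int ν) ((bs s').int ν)).symm
  refine ⟨ν, fin, fun h b => ?_⟩
  obtain ⟨C, hC⟩ := b.2
  have a1 : ∀ n x, |SimpleFunc.approxOn h b.1 Set.univ 0 (Set.mem_univ _) n x| ≤ C + C :=
    fun n x => (SimpleFunc.norm_approxOn_zero_le b.1 (Set.mem_univ _) x n).trans
      (add_le_add (hC x) (hC x))
  have a2 : ∀ x, Tendsto (fun n => SimpleFunc.approxOn h b.1 Set.univ 0 (Set.mem_univ _) n x)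
      atTop (𝓝 (h x)) := fun x => SimpleFunc.tendsto_approxOn b.1 _ (by simp)
  have a3 := cont _ h _ (fun n => (bs _).1) b a1 a2
  simp only [sim] at a3
  exact tendsto_nhds_unique a3 (tendsto_integral_of_dominated_convergence (fun _ => C + C)
    (fun n => (bs _).1.aestronglyMeasurable) (integrable_const _)
    (fun n => ae_of_all _ (a1 n)) (ae_of_all _ a2))

variable {α : ℝ} {L : (ℝ → ℝ) → ℝ}

/-- `ν` is the gradient of `L` at `f` -/
def Grad (α : ℝ) (L : (ℝ → ℝ) → ℝ) (f : ℝ → ℝ) (ν : Measure ℝ) : Prop :=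
  ∀ h, Bd h → α * ∫ x, h x ∂ν ≤ L (f + h) - L f ∧
    L (f + h) - L f ≤ α * log (∫ x, exp (h x) ∂ν)

theorem Ax.grad (H : Ax α L) {f : ℝ → ℝ} (a : Bd f) : ∃ ν : Measure ℝ, IsProbabilityMeasure ν ∧
    (∀ B, (∀ x, |f x| ≤ B) → ENNReal.ofReal (exp (-(2 * B))) • gaussianReal 0 1 ≤ ν ∧
      ν ≤ ENNReal.ofReal (exp (2 * B)) • gaussianReal 0 1) ∧ Grad α L f ν := by
  obtain ⟨p, h0, h1, h2, h3, h4, h5, h6⟩ := H.der a
  have hα := H.pos
  obtain ⟨B, hB⟩ := a.2
  have h5' : ∀ B, (∀ x, |f x| ≤ B) → ∀ h, Bd h → (∀ x, 0 ≤ h x) →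
      p h / α ≤ exp (2 * B) * ∫ x, h x ∂gaussianReal 0 1 := fun B hB h b hh => by
    rw [div_le_iff₀' hα]
    exact h5 B hB h b hh
  obtain ⟨ν, k1, k2⟩ := rep (p := fun h => p h / α) (fun h h' b b' => by rw [h1 h h' b b', add_div])
    (fun h c b => by rw [h2 h c b, mul_div_assoc])
    (fun h h' b b' hle => div_le_div_of_nonneg_right (h4 h h' b b' hle) hα.le) (h5' B hB)
  have k3 : IsProbabilityMeasure ν := by
    have := k2 _ (Bd.const 1)
    rw [h3, div_self hα.ne', integral_const, smul_eq_mul, mul_one] at this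
    exact isProbabilityMeasure_iff_real.2 this.symm
  refine ⟨ν, k3, fun B hB => ⟨Measure.le_iff.2 fun A hA => ?_, Measure.le_iff.2 fun A hA => ?_⟩,
    fun h b => ⟨?_, ?_⟩⟩
  · have := H.der_low a (Bd.ind hA 1) hB (Set.indicator_nonneg fun _ _ => zero_le_one)
      (h0 _ (Bd.ind hA 1))
    rw [← le_div_iff₀' hα, k2 _ (Bd.ind hA 1), integral_indicator_const _ hA,
      integral_indicator_const _ hA, smul_eq_mul, smul_eq_mul, mul_one, mul_one] at this
    rw [Measure.smul_apply, smul_eq_mul, ← ofReal_measureReal (μ := ν), ← ofReal_measureReal,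
      ← ENNReal.ofReal_mul (exp_pos _).le]
    exact ENNReal.ofReal_le_ofReal this
  · have := h5' B hB _ (Bd.ind hA 1) (Set.indicator_nonneg fun _ _ => zero_le_one)
    rw [k2 _ (Bd.ind hA 1), integral_indicator_const _ hA, integral_indicator_const _ hA,
      smul_eq_mul, smul_eq_mul, mul_one, mul_one] at this
    rw [Measure.smul_apply, smul_eq_mul, ← ofReal_measureReal, ← ofReal_measureReal,
      ← ENNReal.ofReal_mul (exp_pos _).le]
    exact ENNReal.ofReal_le_ofReal this
  · have := h0 h b 1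
    rw [← k2 h b, mul_div_cancel₀ _ hα.ne']
    simpa using this
  · have := h6 h b
    rw [k2 _ b.exp, ← le_log_iff_exp_le (integral_exp_pos (b.exp.int ν)), div_le_iff₀' hα] at this
    exact this

theorem Grad.quad (H : Ax α L) {f h : ℝ → ℝ} {ν : Measure ℝ} (G : Grad α L f ν) (a : Bd f)
    (b : Bd h) {C : ℝ} (hC : ∀ x, |h x| ≤ C) :
    L (f + h) - L f ≤ α * ∫ x, h x ∂ν + α * C ^ 2 := by
  have a1 := H.semi a b hC
  have a2 := (G _ b.neg).1
  simp only [Pi.neg_apply, integral_neg] at a2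
  rw [← sub_eq_add_neg] at a2
  linarith

end Vale.Agent.N157X
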