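import Vale.Agent.N157X.Br
import Vale.Agent.N157.Ground

/-! The range of the averages converges to the domain of the rate function. -/

namespace Vale.Agent.N157X

open MeasureTheory ProbabilityTheory Filter Real Topology Vale.Agent.P157.Par Vale.Agent.P157.Sph
  Vale.Agent.N157 Vale.Agent.P157W88

variable {s : Bool} {α : ℝ} {L : (ℝ → ℝ) → ℝ} {f : ℝ → ℝ}

theorem whp_of_mean {X : (N : ℕ) → (Fin ⌊α * N⌋₊ → V N) → ℝ} {e η : ℝ} (hη : 0 < η)
    (h1 : ∀ N, Integrable (X N) (pat α N))
    (h2 : Tendsto (fun N => ∫ g, |X N g - e| ∂pat α N) atTop (𝓝 0)) :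
    Whp α fun N g => |X N g - e| ≤ η := by
  have : ∀ N, IsProbabilityMeasure (pat α N) := fun N => by unfold pat; infer_instance
  have c1 := (ENNReal.continuous_ofReal.tendsto _).comp (h2.div_const η)
  rw [zero_div, ENNReal.ofReal_zero] at c1
  refine tendsto_of_tendsto_of_tendsto_of_le_of_le tendsto_const_nhds c1
    (fun _ => zero_le) fun N => ?_
  have c2 := mul_meas_ge_le_integral_of_nonneg (μ := pat α N)
    (ae_of_all _ fun g => abs_nonneg (X N g - e)) ((h1 N).sub (integrable_const _)).abs η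
  rw [← le_div_iff₀' hη] at c2
  refine (measure_mono (t := {g | η ≤ |X N g - e|})
    fun g (hg : ¬_ ≤ _) => (not_le.1 hg).le).trans ?_
  rw [← ofReal_measureReal (μ := pat α N)]
  exact ENNReal.ofReal_le_ofReal c2

theorem ref_ae (s : Bool) {N : ℕ} (hN : 1 ≤ N) : ∀ᵐ x ∂ref s N, x ∈ space s N := by
  cases s
  · rw [ref_false hN]
    exact ae_cond_mem (meas_sph N)
  · refine ae_cond_mem (s := {x : V N | ∀ i, x i = 1 ∨ x i = -1}) ?_
    rw [Set.ofPred_forall]
    exact MeasurableSet.iInter fun i => (measurableSet_eq_fun (by fun_prop) measurable_const).union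
      (measurableSet_eq_fun (by fun_prop) measurable_const)

theorem ex_space {M N : ℕ} (hN : 1 ≤ N) {g : Fin M → V N} {A : Set (V N)} {c : ℝ}
    (h : exp c ≤ (gibbs s f g).real A) : ∃ x ∈ space s N, x ∈ A := by
  by_contra k
  push Not at k
  have h0 : ref s N A = 0 := measure_mono_null (fun x hx hs => k x hs hx) (ref_ae s hN)
  rw [measureReal_def, gibbs, tilted_absolutelyContinuous _ _ h0] at h
  exact absurd h (by simpa using exp_pos c)

theorem cube_point {N : ℕ} {x : V N} (hx : x ∈ space true N) :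
    (ref true N).real {x} = exp (-(N * log 2)) := by
  have hm : Measurable (WithLp.toLp 2 : (Fin N → ℝ) → E N) := by fun_prop
  have : (WithLp.toLp 2 : (Fin N → ℝ) → E N) ⁻¹' {x} = Set.univ.pi fun i => {x i} := by
    ext z
    simp only [Set.mem_preimage, Set.mem_singleton_iff, Set.mem_pi, Set.mem_univ, forall_const]
    exact ⟨fun h i => by rw [← h], fun h => by ext i; exact h i⟩
  rw [measureReal_def, ref_true, cubeLaw_eq, Measure.map_apply hm (measurableSet_singleton _), this,
    P157.cube, Measure.pi_pi, Finset.prod_congr rfl (g := fun _ => 1 / 2) fun i _ => ?_, exp_neg,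
    exp_nat_mul, exp_log two_pos]
  · simp
  · have e1 : (1 : ℝ) ≠ -1 := by norm_num
    rcases (hx : ∀ i, x i = 1 ∨ x i = -1) i with h | h <;> simp [h, e1, e1.symm]

variable (S : Sys s α L)
include S

theorem Sys.zero : L 0 = 0 := by
  refine abs_nonpos_iff.1 (le_of_forall_pos_le_add fun η hη => ?_)
  obtain ⟨N, ⟨g, hg⟩, hN⟩ :=
    ((S.lim (f := 0) (Bd.const 0) η hη).ex.and (eventually_ge_atTop 1)).exists
  have := S.prob N hN
  simpa [press, ham] using hg

theorem slope (a : Bd f) {u C : ℝ} (hu : ∀ β : ℝ, 0 < β → L (β • f) ≤ β * u + C) {β : ℝ}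
    (hβ : 0 < β) : L (β • f) ≤ β * u :=
  le_of_quad (K := C) fun t ht h1 => by
    have c1 := S.conv (a.smul (β / t)) (Bd.const 0) t (1 - t) ht.le (by linarith) (by ring)
    have c2 := mul_le_mul_of_nonneg_left (hu (β / t) (by positivity)) ht.le
    have e : t • (β / t) • f + (1 - t) • (fun _ => 0 : ℝ → ℝ) = β • f := by
      funext x
      simp only [Pi.add_apply, Pi.smul_apply, smul_eq_mul]
      field_simp
      ring
    rw [e, show (fun _ => 0 : ℝ → ℝ) = 0 from rfl, S.zero] at c1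
    rw [mul_add, ← mul_assoc, mul_div_cancel₀ _ ht.ne'] at c2
    nlinarith

variable (hL : ∀ f, Bd f → Tendsto (fun N => ∫ g, press s f g ∂pat α N) atTop (𝓝 (L f)))
include hL

theorem top (a : Bd f) (hc : s = false → Continuous f) {u u' : ℝ}
    (hu : ∀ β : ℝ, 0 < β → L (β • f) ≤ β * u) (hu' : u < u') :
    Whp α fun N g => ∀ x ∈ space s N, ham f g x / N ≤ u' := by
  obtain ⟨B, hB⟩ := a.2
  cases s
  · obtain ⟨e, h1, h2⟩ := ground (hc rfl) hB S.pos (L := fun β => L (β • f)) fun β _ => by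
      obtain ⟨C, hC⟩ := (a.smul β).2
      obtain ⟨L', k1, k2, -⟩ := sphere_formula' (cls_of_bdd (a.smul β).1 hC) S.pos
      rwa [tendsto_nhds_unique (hL _ (a.smul β)) (of_limit (fun N => ref_false) k1 k2).2.1]
    obtain ⟨h3, h4⟩ := h2 _ (pat α) (fun N a ω => ω a) fun N =>
      ⟨by unfold pat; infer_instance, iIndepFun_pi (X := fun _ => id) fun _ => aemeasurable_id,
        fun a => (measurePreserving_eval (fun _ => stdGaussian (E N)) a).hasLaw⟩
    have h5 : e ≤ u := h1.2 (by
      rintro _ ⟨β, hβ, rfl⟩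
      exact (div_le_iff₀' hβ).2 (hu β hβ))
    refine (whp_of_mean (sub_pos.2 hu') h3 h4).mono (Eventually.of_forall fun N g k x hx => ?_)
    have c1 : 1 / (N : ℝ) * ham f g x ≤ _ := le_supVal hB g hx
    rw [one_div_mul_eq_div] at c1
    linarith [(abs_le.1 k).2]
  · have hβ : 0 < 2 / (u' - u) := div_pos two_pos (sub_pos.2 hu')
    refine (S.lim (a.smul (2 / (u' - u))) 1 one_pos).mono
      ((eventually_ge_atTop 1).mono fun N hN g k x hx => ?_)
    have := S.prob N hN
    have hN' : (0 : ℝ) < N := by positivity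
    have i1 := ham_int g (a.smul (2 / (u' - u))) (ref true N)
    have c1 := setIntegral_le_integral (s := {x}) i1 (ae_of_all _ fun _ => (exp_pos _).le)
    rw [integral_singleton, cube_point hx, smul_eq_mul, ← exp_add,
      ← le_log_iff_exp_le (integral_exp_pos i1), ham_smul] at c1
    have c2 := (abs_le.1 k).2
    rw [press, one_div_mul_eq_div, sub_le_iff_le_add, div_le_iff₀ hN'] at c2
    have c3 := mul_le_mul_of_nonneg_right (hu _ hβ) hN'.le
    have c4 := mul_le_mul_of_nonneg_left (log_le_sub_one_of_pos two_pos) hN'.le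
    have c5 : 2 / (u' - u) * (u' - u) = 2 := div_mul_cancel₀ _ (sub_pos.2 hu').ne'
    rw [div_le_iff₀ hN']
    refine le_of_mul_le_mul_left ?_ hβ
    nlinarith

theorem shape (a : Bd f) {d : ℕ} {h : Fin d → ℝ → ℝ} (b : ∀ i, Bd (h i)) :
    Convex ℝ {y | rate L f h y < ⊤} ∧ ((s = false → ∀ i, Continuous (h i)) → ∀ ε > 0,
      Whp α fun N g => Metric.hausdorffEDist (stat h g '' space s N) {y | rate L f h y < ⊤} ≤
        ENNReal.ofReal ε) := by
  have mem : ∀ y, rate L f h y < ⊤ ↔ ∃ ρ : ℝ, ∀ t : Fin d → ℝ,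
      ∑ i, t i * y i - L (f + ∑ i, t i • h i) + L f ≤ ρ := fun y =>
    ⟨fun k => by
      obtain ⟨ρ, k, -⟩ := EReal.lt_iff_exists_real_btwn.1 k
      exact ⟨ρ, fun t => EReal.coe_le_coe_iff.1 ((le_iSup (fun t : Fin d → ℝ =>
        ((∑ i, t i * y i - L (f + ∑ i, t i • h i) + L f : ℝ) : EReal)) t).trans k.le)⟩,
    fun ⟨ρ, k⟩ => (iSup_le fun t => EReal.coe_le_coe_iff.2 (k t)).trans_lt (EReal.coe_lt_top ρ)⟩
  have cv : Convex ℝ {y | rate L f h y < ⊤} := fun y hy z hz p q hp hq hpq => by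
    obtain ⟨u, hu⟩ := (mem y).1 hy
    obtain ⟨v, hv⟩ := (mem z).1 hz
    refine (mem _).2 ⟨p * u + q * v, fun t => ?_⟩
    have e : ∑ i, t i * (p • y + q • z) i = p * ∑ i, t i * y i + q * ∑ i, t i * z i := by
      simp only [Pi.add_apply, Pi.smul_apply, smul_eq_mul, Finset.mul_sum,
        ← Finset.sum_add_distrib]
      exact Finset.sum_congr rfl fun i _ => by ring
    have c1 := mul_le_mul_of_nonneg_left (hu t) hp
    have c2 := mul_le_mul_of_nonneg_left (hv t) hq
    obtain rfl : q = 1 - p := by linarith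
    linarith
  refine ⟨cv, fun hc ε hε => ?_⟩
  obtain ⟨R, hR⟩ := box S b
  have near : ∀ {U : Set (Fin d → ℝ)}, IsOpen U → ∀ y ∈ U, rate L f h y < ⊤ →
      Whp α fun N g => ∃ x ∈ space s N, stat h g x ∈ U := fun hU y hy k => by
    obtain ⟨ρ, k, -⟩ := EReal.lt_iff_exists_real_btwn.1 k
    exact (lower S a b hU ⟨y, hy, k⟩).mono
      ((eventually_ge_atTop 1).mono fun N hN g k => ex_space hN k)
  have bd : {y | rate L f h y < ⊤} ⊆ Metric.closedBall 0 R := fun y hy => by
    by_contra k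
    obtain ⟨N, ⟨g, x, -, hx⟩, hN⟩ := ((near Metric.isClosed_closedBall.isOpen_compl y k hy).ex.and
      (eventually_ge_atTop 1)).exists
    exact hx (hR N hN g x)
  obtain ⟨T, hT, fT, cT⟩ := Metric.finite_approx_of_totallyBounded
    ((isCompact_closedBall _ _).totallyBounded.subset bd) (ε / 2) (half_pos hε)
  have w1 := whp_all fT.toFinset fun y hy => near Metric.isOpen_ball y
    (Metric.mem_ball_self (half_pos hε)) (hT (fT.mem_toFinset.1 hy))
  have sep : ∀ y : ↥(Metric.thickening ε {y | rate L f h y < ⊤})ᶜ, ∃ (t : Fin d → ℝ) (c : ℝ),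
      c < ∑ i, t i * y.1 i ∧ Whp α fun N g => ∀ x ∈ space s N, ∑ i, t i * stat h g x i ≤ c :=
    fun y => by
      obtain ⟨φ, u, h1, h2⟩ := geometric_hahn_banach_closed_point cv.closure isClosed_closure
        fun k => y.2 (Metric.closure_subset_thickening hε _ k)
      obtain ⟨t, e⟩ : ∃ t : Fin d → ℝ, ∀ z, φ z = ∑ i, t i * z i :=
        ⟨fun i => φ (Pi.single i 1), fun z => by
          conv_lhs => rw [pi_eq_sum_univ' z]
          simp [mul_comm]⟩
      obtain ⟨c, c1, c2⟩ := exists_between h2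
      obtain ⟨B, hB⟩ := a.2
      refine ⟨t, c, e _ ▸ c2, (top S hL (Bd.sum b t) (fun k => by
        rw [Finset.sum_fn]
        exact continuous_finsetSum _ fun i _ => (hc k i).const_smul _) (fun β hβ => slope S (Bd.sum b t) (C := α * B + L f) (fun β hβ => ?_) hβ) c1).mono
          (Eventually.of_forall fun N g k x hx => (ham_sum g h t x).symm.trans_le (k x hx))⟩
      have a' := a.add (Bd.sum b (β • t))
      obtain ⟨ν, _, -, G⟩ := S.toAx.grad a'
      have G' : ∀ v : Fin d → ℝ, ∑ i, v i * (α * ∫ x, h i x ∂ν) - β * ∑ i, t i * (α * ∫ x, h i x ∂ν)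
          ≤ L (f + ∑ i, v i • h i) - L (f + ∑ i, (β • t) i • h i) := fun v => by
        have d1 := (G _ (Bd.sum b (v - β • t))).1
        have e1 : f + ∑ i, (β • t) i • h i + ∑ i, (v - β • t) i • h i = f + ∑ i, v i • h i := by
          simp [sub_smul, Finset.sum_sub_distrib]
        rw [e1] at d1
        refine le_of_eq_of_le ?_ d1
        simp only [Finset.sum_apply]
        rw [integral_finsetSum _ fun i _ => ((b i).smul _).int ν, Finset.mul_sum, Finset.mul_sum,
          ← Finset.sum_sub_distrib]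
        refine Finset.sum_congr rfl fun i _ => ?_
        simp only [Pi.smul_apply, Pi.sub_apply, smul_eq_mul, integral_const_mul]
        ring
      have d2 := h1 (fun i => α * ∫ x, h i x ∂ν) (subset_closure ((mem _).2
        ⟨β * ∑ i, t i * (α * ∫ x, h i x ∂ν) - L (f + ∑ i, (β • t) i • h i) + L f,
          fun v => by linarith [G' v]⟩))
      have d3 := G' 0
      have d4 := S.toAx.shift ((Bd.sum b t).smul β) a' (c := -B) fun x => by
        have := (abs_le.1 (hB x)).1
        simp only [Pi.add_apply, Pi.smul_apply, Finset.sum_apply, smul_eq_mul, Finset.mul_sum,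
          mul_assoc]
        linarith
      rw [e] at d2
      simp only [Pi.zero_apply, zero_mul, zero_smul, Finset.sum_const_zero, add_zero] at d3
      nlinarith
  choose t c h1 h2 using sep
  obtain ⟨T', hT'⟩ := ((isCompact_closedBall (0 : Fin d → ℝ) R).inter_left
    (Metric.isOpen_thickening (δ := ε) (E := {y | rate L f h y < ⊤})).isClosed_compl
      ).elim_finite_subcover (fun y => {z | c y < ∑ i, t y i * z i})
    (fun y => isOpen_lt continuous_const (by fun_prop))
    fun y hy => Set.mem_iUnion.2 ⟨⟨y, hy.1⟩, h1 _⟩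
  refine (w1.and (whp_all T' fun y _ => h2 y)).mono
    ((eventually_ge_atTop 1).mono fun N hN g k => Metric.hausdorffEDist_le_of_mem_edist ?_ ?_)
  · rintro _ ⟨x, hx, rfl⟩
    have c1 : stat h g x ∈ Metric.thickening ε {y | rate L f h y < ⊤} := by
      by_contra c1
      obtain ⟨y, hy, c2⟩ := Set.mem_iUnion₂.1 (hT' ⟨c1, hR N hN g x⟩)
      exact absurd (k.2 y hy x hx) (not_le.2 c2)
    obtain ⟨z, hz, c2⟩ := Metric.mem_thickening_iff.1 c1
    exact ⟨z, hz, (edist_le_ofReal hε.le).2 c2.le⟩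
  · intro y hy
    obtain ⟨z, hz, c1⟩ := Set.mem_iUnion₂.1 (cT hy)
    obtain ⟨x, hx, c2⟩ := k.1 z (fT.mem_toFinset.2 hz)
    refine ⟨_, ⟨x, hx, rfl⟩, (edist_le_ofReal hε.le).2 ?_⟩
    linarith [dist_triangle_right y (stat h g x) z, Metric.mem_ball.1 c1, Metric.mem_ball.1 c2]

end Vale.Agent.N157X
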